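import Mathlib

/-!
Binary quartics and the equations of the numerical Godeaux surfaces with torsion `ℤ/4`.
-/

namespace Vale.Agent.P297.G4

section

variable {R : Type} [CommRing R]

/-- The invariant of degree two of the quartic with coefficients `c 0, …, c 4` of `1, …, X⁴`. -/
def qI (c : Fin 5 → R) : R := 12 * (c 4 * c 0) - 3 * (c 3 * c 1) + c 2 ^ 2

/-- The invariant of degree three. -/
def qJ (c : Fin 5 → R) : R :=
  72 * (c 4 * c 2 * c 0) + 9 * (c 3 * c 2 * c 1) - 27 * (c 4 * c 1 ^ 2) - 27 * (c 3 ^ 2 * c 0) -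
    2 * c 2 ^ 3

/-- The value of a quartic. -/
def qv (c : Fin 5 → R) (x : R) : R := c 0 + c 1 * x + c 2 * x ^ 2 + c 3 * x ^ 3 + c 4 * x ^ 4

/-! The parameters `m = (a₁, a₂, a₃, a₄, a₅, b₁, b₂, b₃, b₄, β, γ)`. -/

/-- `B₀ = l (4 - l) b₁ - l γ²` -/
def fB0 (m : Fin 11 → R) (l : R) : R := l * (4 - l) * m 5 - l * m 10 ^ 2

/-- `B₁ = l (4 - l) a₅ + l β γ` -/
def fB1 (m : Fin 11 → R) (l : R) : R := l * (4 - l) * m 4 + l * (m 9 * m 10)

/-- `B₂ = (4 - l) b₂ - β²` -/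
def fB2 (m : Fin 11 → R) (l : R) : R := (4 - l) * m 6 - m 9 ^ 2

/-- `E = -4 a₂ (4 - l)² l` -/
def fE (m : Fin 11 → R) (l : R) : R := -(4 * m 1 * (4 - l) ^ 2 * l)

/-- The quartic `(B₀ + B₁ X + B₂ X²)² + E (a₁ l² + b₃ l X + a₄ l X² + b₄ X³ + a₃ X⁴)`. -/
def fc (m : Fin 11 → R) (l : R) : Fin 5 → R :=
  ![fB0 m l ^ 2 + fE m l * (m 0 * l ^ 2),
    2 * fB0 m l * fB1 m l + fE m l * (m 7 * l),
    fB1 m l ^ 2 + 2 * fB0 m l * fB2 m l + fE m l * (m 3 * l),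
    2 * fB1 m l * fB2 m l + fE m l * m 8,
    fB2 m l ^ 2 + fE m l * m 2]

end

section

variable {F : Type} [Field F]

/-- `e₁ = a₁ u / w + a₂ / u + a₃ u w + a₄ u + a₅` -/
def fe1 (m : Fin 11 → F) (u w : F) : F := m 0 * u / w + m 1 / u + m 2 * u * w + m 3 * u + m 4

/-- `e₂ = b₁ + b₂ w + (b₃ + b₄ w) u` -/
def fe2 (m : Fin 11 → F) (u w : F) : F := m 5 + m 6 * w + (m 7 + m 8 * w) * u

/-- The equations of the surface. -/
def OnSurf (m : Fin 11 → F) (u w p q : F) : Prop :=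
  p * q + fe1 m u w = 0 ∧ w * p ^ 2 + q ^ 2 + m 9 * w * p + m 10 * q + fe2 m u w = 0

end

end Vale.Agent.P297.G4
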