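import Vale.Agent.P297.H424.G4.Defs

/-!
The invariants of the quartic `fc m l`, divided by the powers of `l (l - 4)`: binary forms of
degree four and six.
-/

namespace Vale.Agent.P297.G4

section

variable {R : Type} [CommRing R]

/-- `ε = 4 y - x` -/
def gE (x y : R) : R := 4 * y - x

/-- `A = ε b₁ - γ² y` -/
def gA (m : Fin 11 → R) (x y : R) : R := gE x y * m 5 - y * m 10 ^ 2

/-- `B = ε a₅ + β γ y` -/
def gB (m : Fin 11 → R) (x y : R) : R := gE x y * m 4 + y * (m 9 * m 10)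

/-- `C = ε b₂ - β² y` -/
def gC (m : Fin 11 → R) (x y : R) : R := gE x y * m 6 - y * m 9 ^ 2

/-- `δ`, a binary quadratic form -/
def gD (m : Fin 11 → R) (x y : R) : R :=
  gE x y * (x * m 4 ^ 2 - 4 * y * (m 5 * m 6)) +
    2 * y * (x * (m 4 * m 9 * m 10) + 2 * y * (m 5 * m 9 ^ 2) + 2 * y * (m 6 * m 10 ^ 2)) -
    y ^ 2 * (m 9 * m 10) ^ 2

/-- a binary cubic form in `A`, `B`, `C` -/
def gI (m : Fin 11 → R) (A B C x y : R) : R :=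
  y * (12 * m 0 * C ^ 2 + 12 * m 2 * A ^ 2 - 6 * m 7 * (B * C) - 6 * m 8 * (A * B) +
    4 * m 3 * (A * C)) + 2 * m 3 * (x * B ^ 2)

/-- a binary quartic form in `A`, `B`, `C` -/
def gJ (m : Fin 11 → R) (A B C x y : R) : R :=
  72 * (x * y * (m 0 * m 3) * C ^ 2 + (x ^ 2 * B ^ 2 + 2 * x * y * (A * C)) * (m 0 * m 2) +
      x * y * A ^ 2 * (m 2 * m 3)) +
    9 * (2 * x * y * (B * C) * (m 3 * m 7) + (x * y * B ^ 2 + 2 * y ^ 2 * (A * C)) * (m 7 * m 8) +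
      2 * x * y * (A * B) * (m 3 * m 8)) -
    27 * (y ^ 2 * C ^ 2 * m 7 ^ 2 + 4 * x * y * (A * B) * (m 2 * m 7)) -
    27 * (y ^ 2 * A ^ 2 * m 8 ^ 2 + 4 * x * y * (B * C) * (m 0 * m 8)) -
    6 * (x ^ 2 * B ^ 2 + 2 * x * y * (A * C)) * m 3 ^ 2

/-- The invariant of degree two, as a binary quartic form. -/
def ID (m : Fin 11 → R) (x y : R) : R :=
  gD m x y ^ 2 - 4 * m 1 * x * gI m (gA m x y) (gB m x y) (gC m x y) x y +
    16 * m 1 ^ 2 * gE x y ^ 2 * x * (x * (12 * (m 0 * m 2) + m 3 ^ 2) - 3 * (m 7 * m 8) * y)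

/-- The invariant of degree three, as a binary sextic form. -/
def JD (m : Fin 11 → R) (x y : R) : R :=
  2 * gD m x y ^ 3 - 12 * m 1 * x * gD m x y * gI m (gA m x y) (gB m x y) (gC m x y) x y -
    16 * m 1 ^ 2 * gE x y * x * gJ m (gA m x y) (gB m x y) (gC m x y) x y +
    64 * m 1 ^ 3 * gE x y ^ 3 * x ^ 2 * (72 * (m 0 * m 2 * m 3) * x + 9 * (m 3 * m 7 * m 8) * y -
      27 * (m 2 * m 7 ^ 2) * y - 27 * (m 0 * m 8 ^ 2) * y - 2 * m 3 ^ 3 * x)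

/-- the quartic in terms of `A`, `B`, `C` -/
theorem fB_eq (m : Fin 11 → R) (l : R) : fB0 m l = l * gA m l 1 ∧ fB1 m l = l * gB m l 1 ∧
    fB2 m l = gC m l 1 := by
  refine ⟨?_, ?_, ?_⟩ <;> simp only [fB0, fB1, fB2, gA, gB, gC, gE] <;> ring

/-- the discriminant of the quadratic polynomial -/
theorem disc_eq (m : Fin 11 → R) (l : R) : l * gB m l 1 ^ 2 - 4 * (gA m l 1 * gC m l 1) =
    gE l 1 * gD m l 1 := by
  simp only [gA, gB, gC, gD, gE]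
  ring

theorem qI_fc (m : Fin 11 → R) (l : R) : qI (fc m l) = (l * (l - 4)) ^ 2 * ID m l 1 := by
  obtain ⟨h0, h1, h2⟩ := fB_eq m l
  have hd := disc_eq m l
  unfold ID fc
  rw [h0, h1, h2]
  have hE : fE m l = -(4 * m 1 * gE l 1 ^ 2 * l) := by
    simp only [fE, gE]
    ring
  rw [hE]
  have hε : l - 4 = -gE l 1 := by
    simp only [gE]
    ring
  rw [hε]
  generalize gA m l 1 = A at hd ⊢
  generalize gB m l 1 = B at hd ⊢
  generalize gC m l 1 = C at hd ⊢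
  generalize gD m l 1 = D at hd ⊢
  generalize gE l 1 = ε at hd ⊢
  change 12 * ((C ^ 2 + -(4 * m 1 * ε ^ 2 * l) * m 2) * ((l * A) ^ 2 + -(4 * m 1 * ε ^ 2 * l) * (m 0 * l ^ 2))) -
    3 * ((2 * (l * B) * C + -(4 * m 1 * ε ^ 2 * l) * m 8) *
      (2 * (l * A) * (l * B) + -(4 * m 1 * ε ^ 2 * l) * (m 7 * l))) +
    ((l * B) ^ 2 + 2 * (l * A) * C + -(4 * m 1 * ε ^ 2 * l) * (m 3 * l)) ^ 2 = _
  simp only [gI]
  linear_combination (l ^ 2 * (l * B ^ 2 - 4 * (A * C) + ε * D)) * hd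

theorem qJ_fc (m : Fin 11 → R) (l : R) : qJ (fc m l) = (l * (l - 4)) ^ 3 * JD m l 1 := by
  obtain ⟨h0, h1, h2⟩ := fB_eq m l
  have hd := disc_eq m l
  unfold JD fc
  rw [h0, h1, h2]
  have hE : fE m l = -(4 * m 1 * gE l 1 ^ 2 * l) := by
    simp only [fE, gE]
    ring
  rw [hE]
  have hε : l - 4 = -gE l 1 := by
    simp only [gE]
    ring
  rw [hε]
  generalize gA m l 1 = A at hd ⊢
  generalize gB m l 1 = B at hd ⊢
  generalize gC m l 1 = C at hd ⊢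
  generalize gD m l 1 = D at hd ⊢
  generalize gE l 1 = ε at hd ⊢
  change 72 * ((C ^ 2 + -(4 * m 1 * ε ^ 2 * l) * m 2) * ((l * B) ^ 2 + 2 * (l * A) * C + -(4 * m 1 * ε ^ 2 * l) * (m 3 * l)) * ((l * A) ^ 2 + -(4 * m 1 * ε ^ 2 * l) * (m 0 * l ^ 2))) +
    9 * ((2 * (l * B) * C + -(4 * m 1 * ε ^ 2 * l) * m 8) * ((l * B) ^ 2 + 2 * (l * A) * C + -(4 * m 1 * ε ^ 2 * l) * (m 3 * l)) *
      (2 * (l * A) * (l * B) + -(4 * m 1 * ε ^ 2 * l) * (m 7 * l))) -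
    27 * ((C ^ 2 + -(4 * m 1 * ε ^ 2 * l) * m 2) * (2 * (l * A) * (l * B) + -(4 * m 1 * ε ^ 2 * l) * (m 7 * l)) ^ 2) -
    27 * ((2 * (l * B) * C + -(4 * m 1 * ε ^ 2 * l) * m 8) ^ 2 * ((l * A) ^ 2 + -(4 * m 1 * ε ^ 2 * l) * (m 0 * l ^ 2))) -
    2 * ((l * B) ^ 2 + 2 * (l * A) * C + -(4 * m 1 * ε ^ 2 * l) * (m 3 * l)) ^ 3 = _
  simp only [gI, gJ]
  linear_combination (-2 * l ^ 3 * ((l * B ^ 2 - 4 * (A * C)) ^ 2 +
    (l * B ^ 2 - 4 * (A * C)) * (ε * D) + (ε * D) ^ 2) +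
    12 * m 1 * l ^ 4 * ε ^ 2 * ((12 * m 0 * C ^ 2 + 12 * m 2 * A ^ 2 - 6 * m 7 * (B * C) - 6 * m 8 * (A * B) +
    4 * m 3 * (A * C)) + 2 * m 3 * (l * B ^ 2))) * hd

end

end Vale.Agent.P297.G4
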