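import Vale.Agent.P297.H424.G4.TFin
import Vale.Agent.P297.H160.Rat4
import Vale.Agent.P297.H55.Maps

/-!
The other side: the difference of the cycles at `s` and `s⁻¹`, for generic points.
-/

set_option linter.unusedSectionVars false

open IntermediateField Polynomial WeierstrassCurve WeierstrassCurve.Affine

namespace Vale.Agent.P297.G4

open Vale.Agent.P297 Vale.Agent.P297.Gen Vale.Agent.P297.H839 Vale.Agent.P297.H600
open Vale.Agent.P297.H729 Vale.Agent.P297.Z3

section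

variable {N : Type} [Field N] [Algebra ℂ N]

/-- the identity of the invariants, over a larger field -/
theorem quart_at {m : Fin 11 → ℂ} {D : Fin 5 → Fin 3 → ℂ}
    (hD : ∀ l : ℂ, qI (H160.dq D l) = ID m l 1 ∧ qJ (H160.dq D l) = JD m l 1) (l : N) :
    qI (H160.dq (fun i j => algebraMap ℂ N (D i j)) l) = ID (am N m) l 1 ∧
      qJ (H160.dq (fun i j => algebraMap ℂ N (D i j)) l) = JD (am N m) l 1 := by
  -- the identities of polynomials
  have hdq : ∀ {R S : Type} [CommRing R] [CommRing S] (φ : R →+* S) (E : Fin 5 → Fin 3 → R)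
      (x : R), (fun i => φ (H160.dq E x i)) = H160.dq (fun i j => φ (E i j)) (φ x) := by
    intro R S _ _ φ E x
    funext i
    simp only [H160.dq, map_add, map_mul, map_pow]
  have hI : qI (H160.dq (fun i j => (C (D i j) : ℂ[X])) X) = ID (fun i => (C (m i) : ℂ[X])) X 1 := by
    apply Polynomial.funext
    intro r
    have h1 := H55.map_qI (φ := evalRingHom r) (H160.dq (fun i j => (C (D i j) : ℂ[X])) X)
    have h2 := H55.map_ID (φ := evalRingHom r) (fun i => (C (m i) : ℂ[X])) X 1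
    rw [hdq] at h1
    simp only [coe_evalRingHom, eval_C, eval_X, eval_one] at h1 h2
    rw [h1, h2]
    exact (hD r).1
  have hJ : qJ (H160.dq (fun i j => (C (D i j) : ℂ[X])) X) = JD (fun i => (C (m i) : ℂ[X])) X 1 := by
    apply Polynomial.funext
    intro r
    have h1 := H55.map_qJ (φ := evalRingHom r) (H160.dq (fun i j => (C (D i j) : ℂ[X])) X)
    have h2 := H55.map_JD (φ := evalRingHom r) (fun i => (C (m i) : ℂ[X])) X 1
    rw [hdq] at h1
    simp only [coe_evalRingHom, eval_C, eval_X, eval_one] at h1 h2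
    rw [h1, h2]
    exact (hD r).2
  constructor
  · have h1 := H55.map_qI (φ := ((aeval l : ℂ[X] →ₐ[ℂ] N) : ℂ[X] →+* N))
      (H160.dq (fun i j => (C (D i j) : ℂ[X])) X)
    have h2 := H55.map_ID (φ := ((aeval l : ℂ[X] →ₐ[ℂ] N) : ℂ[X] →+* N))
      (fun i => (C (m i) : ℂ[X])) X 1
    rw [hdq, hI] at h1
    simp only [RingHom.coe_coe, aeval_C, aeval_X, map_one] at h1 h2
    rw [← h1, h2]
    rfl
  · have h1 := H55.map_qJ (φ := ((aeval l : ℂ[X] →ₐ[ℂ] N) : ℂ[X] →+* N))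
      (H160.dq (fun i j => (C (D i j) : ℂ[X])) X)
    have h2 := H55.map_JD (φ := ((aeval l : ℂ[X] →ₐ[ℂ] N) : ℂ[X] →+* N))
      (fun i => (C (m i) : ℂ[X])) X 1
    rw [hdq, hJ] at h1
    simp only [RingHom.coe_coe, aeval_C, aeval_X, map_one] at h1 h2
    rw [← h1, h2]
    rfl

/-- `l` is transcendental -/
theorem lv_tr {s : N} (hs : Transcendental ℂ s) : Transcendental ℂ (lv s) := by
  intro h
  apply hs
  obtain ⟨p, hp0, hp⟩ := h
  have hs0 : s ≠ 0 := by
    rintro rfl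
    exact hs isAlgebraic_zero
  -- `s` is integral over `ℂ(l)`
  have halg : IsAlgebraic ℂ (lv s) := ⟨p, hp0, hp⟩
  have h1 : s ^ 2 - (lv s - 2) * s + 1 = 0 := by
    unfold lv
    field_simp
    ring
  have h2 : _root_.IsIntegral ℂ (lv s - 2) := by
    have k1 : _root_.IsIntegral ℂ (algebraMap ℂ N 2) := isIntegral_algebraMap
    rw [map_ofNat] at k1
    exact (halg.isIntegral).sub k1
  by_contra hcon
  apply hcon
  let A := integralClosure ℂ N
  have h3 : _root_.IsIntegral A s := by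
    refine ⟨X ^ 2 - C ⟨lv s - 2, h2⟩ * X + 1, ?_, ?_⟩
    · monicity!
    · rw [eval₂_add, eval₂_sub, eval₂_mul, eval₂_pow, eval₂_X, eval₂_C, eval₂_one]
      exact h1
  exact (isIntegral_trans s h3).isAlgebraic

/-- the discriminant at a transcendental element -/
theorem disc_ne {m : Fin 11 → ℂ} {D : Fin 5 → Fin 3 → ℂ}
    (hD : ∀ l : ℂ, qI (H160.dq D l) = ID m l 1 ∧ qJ (H160.dq D l) = JD m l 1)
    (hj : ∀ α β : ℂ, (α ≠ 0 ∨ β ≠ 0) →
      C α * qI (H160.dq (fun i j => (C (D i j) : ℂ[X])) X) ^ 3 ≠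
        C β * qJ (H160.dq (fun i j => (C (D i j) : ℂ[X])) X) ^ 2) {s : N}
    (hs : Transcendental ℂ s) :
    4 * qI (fc (am N m) (lv s)) ^ 3 ≠ qJ (fc (am N m) (lv s)) ^ 2 := by
  have hl := lv_tr hs
  obtain ⟨h1, h2⟩ := quart_at (N := N) hD (lv s)
  rw [qI_fc, qJ_fc, ← h1, ← h2]
  have hinj : Function.Injective (aeval (lv s) : ℂ[X] →ₐ[ℂ] N) :=
    transcendental_iff_injective.1 hl
  have hne : ∀ c : ℂ, lv s - algebraMap ℂ N c ≠ 0 := by
    intro c h0
    apply hl
    rw [sub_eq_zero.1 h0]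
    exact isAlgebraic_algebraMap c
  have hl0 : lv s ≠ 0 := by
    have h3 := hne 0
    rwa [map_zero, sub_zero] at h3
  have hl4 : lv s - 4 ≠ 0 := by
    have h3 := hne 4
    rwa [map_ofNat] at h3
  have hdq : ∀ {R S : Type} [CommRing R] [CommRing S] (φ : R →+* S) (E : Fin 5 → Fin 3 → R)
      (x : R), (fun i => φ (H160.dq E x i)) = H160.dq (fun i j => φ (E i j)) (φ x) := by
    intro R S _ _ φ E x
    funext i
    simp only [H160.dq, map_add, map_mul, map_pow]
  have k1 := H55.map_qI (φ := ((aeval (lv s) : ℂ[X] →ₐ[ℂ] N) : ℂ[X] →+* N))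
      (H160.dq (fun i j => (C (D i j) : ℂ[X])) X)
  have k2 := H55.map_qJ (φ := ((aeval (lv s) : ℂ[X] →ₐ[ℂ] N) : ℂ[X] →+* N))
      (H160.dq (fun i j => (C (D i j) : ℂ[X])) X)
  rw [hdq] at k1 k2
  simp only [RingHom.coe_coe, aeval_C, aeval_X] at k1 k2
  intro h0
  apply hj 4 1 (Or.inr one_ne_zero)
  apply hinj
  rw [map_mul, map_mul, map_pow, map_pow, aeval_C, aeval_C, map_ofNat, map_one, k1, k2, one_mul]
  have h5 : (lv s * (lv s - 4)) ^ 6 ≠ 0 := pow_ne_zero 6 (mul_ne_zero hl0 hl4)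
  apply mul_left_cancel₀ h5
  linear_combination h0

/-- a root of a quartic -/
theorem q_root [IsAlgClosed N] (c : Fin 5 → N) (hc : 4 * qI c ^ 3 ≠ qJ c ^ 2) :
    ∃ e, qv c e = 0 := by
  obtain ⟨p, hp⟩ : ∃ p : N[X], p = C (c 0) + C (c 1) * X + C (c 2) * X ^ 2 + C (c 3) * X ^ 3 +
    C (c 4) * X ^ 4 := ⟨_, rfl⟩
  have hdeg : p.degree ≠ 0 := by
    intro h0
    have h1 := Polynomial.eq_C_of_degree_eq_zero h0
    have hk : ∀ n, coeff p (n + 1) = 0 := by
      intro n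
      rw [h1, coeff_C_succ]
    rw [hp] at hk
    have k1 := hk 0
    have k2 := hk 1
    have k3 := hk 2
    have k4 := hk 3
    simp only [coeff_add, coeff_C_mul, coeff_X_pow, coeff_X, coeff_C] at k1 k2 k3 k4
    norm_num at k1 k2 k3 k4
    apply hc
    unfold qI qJ
    rw [k1, k2, k3, k4]
    ring
  obtain ⟨e, he⟩ := IsAlgClosed.exists_root p hdeg
  refine ⟨e, ?_⟩
  rw [Polynomial.IsRoot.def, hp] at he
  simp only [eval_add, eval_mul, eval_C, eval_X, eval_pow] at he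
  unfold qv
  exact he

variable {K : Type} [Field K] [Algebra ℂ K] [CharZero N] [IsAlgClosed N]

/-- [TS] with the relation (J) as a hypothesis -/
theorem tside_aux {m : Fin 11 → ℂ} {D : Fin 5 → Fin 3 → ℂ}
    (hD : ∀ l : ℂ, qI (H160.dq D l) = ID m l 1 ∧ qJ (H160.dq D l) = JD m l 1)
    (hj : ∀ α β : ℂ, (α ≠ 0 ∨ β ≠ 0) →
      C α * qI (H160.dq (fun i j => (C (D i j) : ℂ[X])) X) ^ 3 ≠
        C β * qJ (H160.dq (fun i j => (C (D i j) : ℂ[X])) X) ^ 2)
    (h4 : Algebra.trdeg ℂ N = 4) (B : N → N → N → ((K →ₐ[ℂ] N) →₀ ℤ))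
    (hB : ∀ (g : N ≃ₐ[ℂ] N) (e X Y : N), act g.toAlgHom (B e X Y) = B (g e) (g X) (g Y))
    [DecidableEq N]
    (hJ : ∀ (s ε : N) (_ : TD m B s ε) (P : (Wq (cq m s)).Point), ¬ InF (cl0 {s}) P →
      nsum B (cq m s) ε s P + nsum B (cq m s) ε s⁻¹ (-P) ∈ stableRelations K N)
    {s X Y : N} (hg : Gen m s X Y) :
    (8 : ℤ) • (B s X Y - B s⁻¹ X Y) ∈ stableRelations K N := by
  have hs : Transcendental ℂ s := hg.ind.transcendental 0
  have hdisc := disc_ne hD hj hs
  have hX : X ∉ cl0 ({s} : Set N) := by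
    have h1 : (![s, X] : Fin 2 → N) 1 ∉ cl0 ((![s, X] : Fin 2 → N) '' {0}) := by
      rw [mem_cl0]
      exact (IntermediateField.transcendental_adjoin_iff).2
        (hg.ind.transcendental_adjoin (by simp))
    rw [Set.image_singleton] at h1
    exact h1
  -- a root of the quartic
  obtain ⟨ε, hε⟩ : ∃ ε : N, qv (cq m s) ε = 0 := q_root (cq m s) hdisc
  have T : TD m B s ε := ⟨h4, hs, hdisc, hε, hB⟩
  have hne : X ≠ ε := fun h => hX (by rw [h]; exact T.emem)
  obtain ⟨P, hfin, hPX, hPY⟩ := exists_fin T.disc T.root hg.eq hne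
  have hP : ¬ InF (cl0 {s}) P := by
    rw [← aX_mem_iff T.disc T.cmem (closed_cl0 _) T.emem T.root hfin, hPX]
    exact hX
  have h1 := T.diff (hJ s ε T) hP
  unfold bet at h1
  rwa [hPX, hPY] at h1

end

end Vale.Agent.P297.G4
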