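import Vale.Agent.P297.H424.G4.Forms
import Vale.Agent.P297.H600.Stab

/-!
The common definitions: generic points `(s, X, Y)` of the double cover, and the pairs of embeddings
of the function field attached to them.
-/

set_option linter.unusedSectionVars false

open IntermediateField Polynomial

namespace Vale.Agent.P297.G4

open Vale.Agent.P297 Vale.Agent.P297.H839 Vale.Agent.P297.H600

section

variable {N : Type} [Field N] [Algebra ℂ N]

/-- The parameters, in a field. -/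
def am (N : Type) [Field N] [Algebra ℂ N] (m : Fin 11 → ℂ) : Fin 11 → N :=
  fun i => algebraMap ℂ N (m i)

/-- `l = (1 + s)² / s` -/
def lv (s : N) : N := (1 + s) ^ 2 / s

/-- A generic point. -/
structure Gen (m : Fin 11 → ℂ) (s X Y : N) : Prop where
  ind : AlgebraicIndependent ℂ ![s, X]
  eq : Y ^ 2 = qv (fc (am N m) (lv s)) X

/-- `θ₂ = -X / (1 + s)` -/
def th2 (s X : N) : N := -X / (1 + s)

/-- `θ₁ = s θ₂` -/
def th1 (s X : N) : N := s * th2 s X

/-- `w = X² / l` -/
def vw (s X : N) : N := X ^ 2 / lv s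

/-- `H = (B₀ + B₁ X + B₂ X²) / (l (4 - l))` -/
def vH (m : Fin 11 → ℂ) (s X : N) : N :=
  (fB0 (am N m) (lv s) + fB1 (am N m) (lv s) * X + fB2 (am N m) (lv s) * X ^ 2) /
    (lv s * (4 - lv s))

/-- `G = b₃ + b₄ w + X (a₁ / w + a₃ w + a₄)` -/
def vG (m : Fin 11 → ℂ) (s X : N) : N :=
  am N m 7 + am N m 8 * vw s X + X * (am N m 0 / vw s X + am N m 2 * vw s X + am N m 3)

/-- `u = (-H + Y / (l (4 - l))) / (2 G)` -/
def vu (m : Fin 11 → ℂ) (s X Y : N) : N :=
  (-vH m s X + Y / (lv s * (4 - lv s))) / (2 * vG m s X)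

/-- `c₁ = θ₁ (γ + β θ₂) / (θ₂ - θ₁)` -/
def vc (m : Fin 11 → ℂ) (s X : N) : N :=
  th1 s X * (am N m 10 + am N m 9 * th2 s X) / (th2 s X - th1 s X)

variable {K : Type} [Field K] [Algebra ℂ K]

/-- The embeddings on the line `q = θ₁ p + c₁` over the point `(u, w)`. -/
def Bset (u w p q : K) (m : Fin 11 → ℂ) (s X Y : N) : Set (K →ₐ[ℂ] N) :=
  {φ | φ u = vu m s X Y ∧ φ w = vw s X ∧ φ q = th1 s X * φ p + vc m s X}

open Classical in
/-- The sum of the embeddings on the line. -/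
noncomputable def Bs (u w p q : K) (m : Fin 11 → ℂ) (s X Y : N) : (K →ₐ[ℂ] N) →₀ ℤ :=
  ∑ᶠ φ ∈ Bset u w p q m s X Y, Finsupp.single φ (1 : ℤ)

theorem lv_inv {s : N} (hs : s ≠ 0) : lv s⁻¹ = lv s := by
  unfold lv
  field_simp
  ring

theorem map_am (g : N →ₐ[ℂ] N) (m : Fin 11 → ℂ) (i : Fin 11) : g (am N m i) = am N m i :=
  g.commutes _

theorem map_lv (g : N →ₐ[ℂ] N) (s : N) : g (lv s) = lv (g s) := by
  simp only [lv, map_div₀, map_pow, map_add, map_one]

theorem map_vw (g : N →ₐ[ℂ] N) (s X : N) : g (vw s X) = vw (g s) (g X) := by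
  simp only [vw, map_div₀, map_pow, map_lv]

theorem map_fB0 (g : N →ₐ[ℂ] N) (m : Fin 11 → ℂ) (l : N) :
    g (fB0 (am N m) l) = fB0 (am N m) (g l) := by
  simp only [fB0, map_sub, map_mul, map_pow, map_am, map_ofNat]

theorem map_fB1 (g : N →ₐ[ℂ] N) (m : Fin 11 → ℂ) (l : N) :
    g (fB1 (am N m) l) = fB1 (am N m) (g l) := by
  simp only [fB1, map_sub, map_add, map_mul, map_am, map_ofNat]

theorem map_fB2 (g : N →ₐ[ℂ] N) (m : Fin 11 → ℂ) (l : N) :
    g (fB2 (am N m) l) = fB2 (am N m) (g l) := by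
  simp only [fB2, map_sub, map_mul, map_pow, map_am, map_ofNat]

theorem map_fE (g : N →ₐ[ℂ] N) (m : Fin 11 → ℂ) (l : N) :
    g (fE (am N m) l) = fE (am N m) (g l) := by
  simp only [fE, map_neg, map_sub, map_mul, map_pow, map_am, map_ofNat]

theorem map_fc (g : N →ₐ[ℂ] N) (m : Fin 11 → ℂ) (l : N) (i : Fin 5) :
    g (fc (am N m) l i) = fc (am N m) (g l) i := by
  fin_cases i
  · change g (fB0 (am N m) l ^ 2 + fE (am N m) l * (am N m 0 * l ^ 2)) = _
    simp only [map_add, map_mul, map_pow, map_fB0, map_fE, map_am]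
    rfl
  · change g (2 * fB0 (am N m) l * fB1 (am N m) l + fE (am N m) l * (am N m 7 * l)) = _
    simp only [map_add, map_mul, map_fB0, map_fB1, map_fE, map_am, map_ofNat]
    rfl
  · change g (fB1 (am N m) l ^ 2 + 2 * fB0 (am N m) l * fB2 (am N m) l +
      fE (am N m) l * (am N m 3 * l)) = _
    simp only [map_add, map_mul, map_pow, map_fB0, map_fB1, map_fB2, map_fE, map_am, map_ofNat]
    rfl
  · change g (2 * fB1 (am N m) l * fB2 (am N m) l + fE (am N m) l * am N m 8) = _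
    simp only [map_add, map_mul, map_fB1, map_fB2, map_fE, map_am, map_ofNat]
    rfl
  · change g (fB2 (am N m) l ^ 2 + fE (am N m) l * am N m 2) = _
    simp only [map_add, map_mul, map_pow, map_fB2, map_fE, map_am]
    rfl

theorem map_th2 (g : N →ₐ[ℂ] N) (s X : N) : g (th2 s X) = th2 (g s) (g X) := by
  simp only [th2, map_div₀, map_neg, map_add, map_one]

theorem map_th1 (g : N →ₐ[ℂ] N) (s X : N) : g (th1 s X) = th1 (g s) (g X) := by
  simp only [th1, map_mul, map_th2]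

theorem map_vH (g : N →ₐ[ℂ] N) (m : Fin 11 → ℂ) (s X : N) :
    g (vH m s X) = vH m (g s) (g X) := by
  simp only [vH, map_div₀, map_add, map_mul, map_sub, map_pow, map_fB0, map_fB1, map_fB2, map_lv,
    map_ofNat]

theorem map_vG (g : N →ₐ[ℂ] N) (m : Fin 11 → ℂ) (s X : N) :
    g (vG m s X) = vG m (g s) (g X) := by
  simp only [vG, map_div₀, map_add, map_mul, map_am, map_vw]

theorem map_vu (g : N →ₐ[ℂ] N) (m : Fin 11 → ℂ) (s X Y : N) :
    g (vu m s X Y) = vu m (g s) (g X) (g Y) := by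
  simp only [vu, map_div₀, map_add, map_mul, map_sub, map_neg, map_vH, map_vG, map_lv, map_ofNat]

theorem map_vc (g : N →ₐ[ℂ] N) (m : Fin 11 → ℂ) (s X : N) :
    g (vc m s X) = vc m (g s) (g X) := by
  simp only [vc, map_div₀, map_add, map_mul, map_sub, map_th1, map_th2, map_am]

theorem mem_Bset (g : N ≃ₐ[ℂ] N) {u w p q : K} {m : Fin 11 → ℂ} {s X Y : N} {φ : K →ₐ[ℂ] N}
    (h : φ ∈ Bset u w p q m s X Y) :
    g.toAlgHom.comp φ ∈ Bset u w p q m (g s) (g X) (g Y) := by
  obtain ⟨h1, h2, h3⟩ := h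
  refine ⟨?_, ?_, ?_⟩
  · change g.toAlgHom (φ u) = _
    rw [h1, map_vu]
    rfl
  · change g.toAlgHom (φ w) = _
    rw [h2, map_vw]
    rfl
  · change g.toAlgHom (φ q) = _
    rw [h3, map_add, map_mul, map_th1, map_vc]
    rfl

/-- the sums are equivariant -/
theorem act_Bs (g : N ≃ₐ[ℂ] N) (u w p q : K) (m : Fin 11 → ℂ) (s X Y : N) :
    act g.toAlgHom (Bs u w p q m s X Y) = Bs u w p q m (g s) (g X) (g Y) := by
  classical
  have hinj : Function.Injective (fun φ : K →ₐ[ℂ] N => g.toAlgHom.comp φ) := by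
    intro φ ψ h
    apply AlgHom.ext
    intro k
    exact g.injective (DFunLike.congr_fun h k)
  have himage : (fun φ : K →ₐ[ℂ] N => g.toAlgHom.comp φ) '' Bset u w p q m s X Y =
      Bset u w p q m (g s) (g X) (g Y) := by
    apply Set.Subset.antisymm
    · rintro _ ⟨φ, hφ, rfl⟩
      exact mem_Bset g hφ
    · intro ψ hψ
      refine ⟨g.symm.toAlgHom.comp ψ, ?_, ?_⟩
      · have h1 := mem_Bset g.symm hψ
        rwa [AlgEquiv.symm_apply_apply, AlgEquiv.symm_apply_apply,
          AlgEquiv.symm_apply_apply] at h1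
      · apply AlgHom.ext
        intro k
        exact g.apply_symm_apply (ψ k)
  unfold Bs
  rw [← himage, finsum_mem_image hinj.injOn]
  by_cases hfin : (Bset u w p q m s X Y).Finite
  · rw [AddMonoidHom.map_finsum_mem _ _ hfin]
    simp only [act_single]
  · have h0 : ∀ (f : (K →ₐ[ℂ] N) → ((K →ₐ[ℂ] N) →₀ ℤ)), (∀ φ, f φ ≠ 0) →
        ∑ᶠ φ ∈ Bset u w p q m s X Y, f φ = 0 := by
      intro f hf
      apply finsum_mem_eq_zero_of_infinite
      have h1 : Bset u w p q m s X Y ∩ Function.support f = Bset u w p q m s X Y := by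
        apply Set.inter_eq_left.2
        intro φ _
        exact hf φ
      rw [h1]
      exact hfin
    rw [h0 _ (fun φ => by simp), h0 _ (fun φ => by simp), map_zero]

end

end Vale.Agent.P297.G4
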