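import Vale.Agent.P297.H424.G4.TAct

/-!
The difference of the cycles at `s` and at `s⁻¹`.
-/

set_option linter.unusedSectionVars false

open IntermediateField Polynomial WeierstrassCurve WeierstrassCurve.Affine

namespace Vale.Agent.P297.G4

open Vale.Agent.P297 Vale.Agent.P297.Gen Vale.Agent.P297.H839 Vale.Agent.P297.H600
open Vale.Agent.P297.H729 Vale.Agent.P297.Z3

section

variable {K N : Type} [Field K] [Algebra ℂ K] [Field N] [Algebra ℂ N]
variable [CharZero N] [IsAlgClosed N] [DecidableEq N]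
variable {m : Fin 11 → ℂ} {B : N → N → N → ((K →ₐ[ℂ] N) →₀ ℤ)} {s ε : N}

theorem gen_negP {M : IntermediateField ℂ N} {a b : N} {P : (wc a b).toAffine.Point}
    (hP : ¬ InF M P) : ¬ InF M (-P) := by
  intro h
  apply hP
  rw [← neg_neg P]
  exact h.neg

/-- the sums over the translates of a point and of its opposite -/
theorem TD.nsum_neg (T : TD m B s ε) {e : N} (he : e = s ∨ e = s⁻¹) {P : (Wq (cq m s)).Point}
    (hP : ¬ InF (cl0 {s}) P) : nsum B (cq m s) ε e P + nsum B (cq m s) ε e (-P) ∈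
      stableRelations K N := by
  unfold nsum
  rw [← Finset.sum_add_distrib]
  refine sum_mem fun t ht => ?_
  rw [mem_tors2] at ht
  have h1 := T.rel_neg he (gen_add2 (closed_cl0 _) T.amem T.bmem hP ht)
  have h2 : -(P + t) = -P + t := by
    rw [neg_add, neg_mem_tors2 ht]
  rwa [h2] at h1

/-- the difference of the sums over the translates -/
theorem TD.nsum_sub (T : TD m B s ε)
    (hJ : ∀ P : (Wq (cq m s)).Point, ¬ InF (cl0 {s}) P →
      nsum B (cq m s) ε s P + nsum B (cq m s) ε s⁻¹ (-P) ∈ stableRelations K N)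
    {P : (Wq (cq m s)).Point} (hP : ¬ InF (cl0 {s}) P) :
    nsum B (cq m s) ε s P - nsum B (cq m s) ε s⁻¹ P ∈ stableRelations K N := by
  have h1 := hJ P hP
  have h2 := T.nsum_neg (e := s⁻¹) (Or.inr rfl) hP
  have h3 := sub_mem h1 h2
  have h4 : nsum B (cq m s) ε s P - nsum B (cq m s) ε s⁻¹ P =
      nsum B (cq m s) ε s P + nsum B (cq m s) ε s⁻¹ (-P) -
      (nsum B (cq m s) ε s⁻¹ P + nsum B (cq m s) ε s⁻¹ (-P)) := by abel
  rw [h4]
  exact h3

theorem exists_pt {c : Fin 5 → N} (hc : 4 * qI c ^ 3 ≠ qJ c ^ 2) (x : N) :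
    ∃ y h, ∃ P : (Wq c).Point, P = Point.some x y h := by
  obtain ⟨y, hy⟩ := IsAlgClosed.exists_pow_nat_eq (x ^ 3 + (-qI c / 3) * x + (-qJ c / 27))
    (Nat.succ_pos 1)
  exact ⟨y, wc_nonsing (wq_disc hc) hy, _, rfl⟩

/-- The relation of two points. -/
theorem TD.two_points (T : TD m B s ε)
    (hJ : ∀ P : (Wq (cq m s)).Point, ¬ InF (cl0 {s}) P →
      nsum B (cq m s) ε s P + nsum B (cq m s) ε s⁻¹ (-P) ∈ stableRelations K N)
    {P Q : (Wq (cq m s)).Point} {x x' : N} (hx : x ∉ cl0 {s}) (hx' : x' ∉ clo (cl0 {s}) {x})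
    (hPx : ∃ y h, P = Point.some x y h) (hQx : ∃ y h, Q = Point.some x' y h) :
    (tors2 (-qI (cq m s) / 3) (-qJ (cq m s) / 27)).card •
      ((bet B (cq m s) ε s P - bet B (cq m s) ε s⁻¹ P) +
        (bet B (cq m s) ε s Q - bet B (cq m s) ε s⁻¹ Q)) ∈ stableRelations K N := by
  classical
  set κ := cl0 ({s} : Set N) with hκ
  have hκc : Closed κ := closed_cl0 _
  have a0 : -qI (cq m s) / 3 ∈ κ := T.amem
  have b0 : -qJ (cq m s) / 27 ∈ κ := T.bmem
  set M₁ := clo κ {x} with hM₁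
  have hM₁c : Closed M₁ := closed_clo _ _
  have h01 : κ ≤ M₁ := le_clo _ _
  set M₂ := clo M₁ {x'} with hM₂
  have hM₂c : Closed M₂ := closed_clo _ _
  have h12 : M₁ ≤ M₂ := le_clo _ _
  have h02 : κ ≤ M₂ := h01.trans h12
  obtain ⟨y, h, rfl⟩ := hPx
  obtain ⟨y', h', rfl⟩ := hQx
  obtain ⟨t, ht⟩ := exists_notMem2 T.deg s x x'
  rw [← hκ, ← hM₁, ← hM₂] at ht
  obtain ⟨z, hz, R, hR⟩ := exists_pt T.disc t
  set P := Point.some x y h with hP
  set Q := Point.some x' y' h' with hQ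
  have gP : ¬ InF κ P := by
    rw [hP, inF_iff hκc a0 b0]
    exact hx
  have mP : InF M₁ P := by
    rw [hP, inF_iff hM₁c (h01 a0) (h01 b0)]
    exact mem_clo_self _ _
  have gQ : ¬ InF M₁ Q := by
    rw [hQ, inF_iff hM₁c (h01 a0) (h01 b0)]
    exact hx'
  have mQ : InF M₂ Q := by
    rw [hQ, inF_iff hM₂c (h02 a0) (h02 b0)]
    exact mem_clo_self _ _
  have gR : ¬ InF M₂ R := by
    rw [hR, inF_iff hM₂c (h02 a0) (h02 b0)]
    exact ht
  obtain ⟨S, hS⟩ : ∃ S, S = -(P + Q + R) := ⟨_, rfl⟩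
  have gS : ¬ InF M₂ S := by
    intro h0
    apply gR
    have h1 : R = -S - (P + Q) := by rw [hS]; abel
    rw [h1]
    exact (h0.neg).sub (h02 a0) ((mP.mono h12).add (h02 a0) mQ)
  have gR0 : ¬ InF κ R := fun h0 => gR (h0.mono h02)
  have gS0 : ¬ InF κ S := fun h0 => gS (h0.mono h02)
  -- the relations
  have key : ∀ e, (e = s ∨ e = s⁻¹) →
      (tors2 (-qI (cq m s) / 3) (-qJ (cq m s) / 27)).card • (bet B (cq m s) ε e P +
        bet B (cq m s) ε e Q) + (nsum B (cq m s) ε e R + nsum B (cq m s) ε e S) ∈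
      stableRelations K N := by
    intro e he
    have hk : ∀ u ∈ tors2 (-qI (cq m s) / 3) (-qJ (cq m s) / 27),
        (bet B (cq m s) ε e P + bet B (cq m s) ε e Q) + (bet B (cq m s) ε e (R + u) +
          bet B (cq m s) ε e (S + u)) ∈ stableRelations K N := by
      intro u hu
      rw [mem_tors2] at hu
      have h1 := T.rel_star he (![P, Q, R + u, S + u]) (by
          change P + Q + (R + u + (S + u)) = 0
          have h2 : P + Q + (R + u + (S + u)) = P + Q + R + S + (2 : ℕ) • u := by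
            rw [two_nsmul]
            abel
          rw [h2, hu, hS]
          abel) hM₁c hM₂c h01 h12 gP mP gQ mQ
        (gen_add2 hM₂c (h02 a0) (h02 b0) gR hu) (by
          intro M hM hκM m0 m1 m2 v
          have hRM : InF M R := by
            have h3 : R = R + u - u := by abel
            rw [h3]
            exact InF.sub (hκM a0) m2 (tors2_inF hM (hκM a0) (hκM b0) hu)
          have k1 : x ∈ M := (m0 x y h rfl).1
          have k2 : x' ∈ M := (m1 x' y' h' rfl).1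
          rw [hR, inF_iff hM (hκM a0) (hκM b0)] at hRM
          exact full T.deg T.tr hx hx' ht hM (hκM (subset_cl0 _ rfl)) k1 k2 hRM v)
      rw [Fin.sum_univ_four] at h1
      have h2 : bet B (cq m s) ε e (![P, Q, R + u, S + u] 0) +
          bet B (cq m s) ε e (![P, Q, R + u, S + u] 1) +
          bet B (cq m s) ε e (![P, Q, R + u, S + u] 2) +
          bet B (cq m s) ε e (![P, Q, R + u, S + u] 3) =
          (bet B (cq m s) ε e P + bet B (cq m s) ε e Q) + (bet B (cq m s) ε e (R + u) +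
          bet B (cq m s) ε e (S + u)) := by
        change bet B (cq m s) ε e P + bet B (cq m s) ε e Q + bet B (cq m s) ε e (R + u) +
          bet B (cq m s) ε e (S + u) = _
        abel
      rwa [h2] at h1
    have h3 := sum_mem hk
    rw [Finset.sum_add_distrib, Finset.sum_const, Finset.sum_add_distrib] at h3
    exact h3
  have r1 := key s (Or.inl rfl)
  have r2 := key s⁻¹ (Or.inr rfl)
  have r3 := T.nsum_sub hJ gR0
  have r4 := T.nsum_sub hJ gS0
  have r5 := sub_mem (sub_mem r1 r2) (add_mem r3 r4)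
  have h6 : (tors2 (-qI (cq m s) / 3) (-qJ (cq m s) / 27)).card •
      ((bet B (cq m s) ε s P - bet B (cq m s) ε s⁻¹ P) +
        (bet B (cq m s) ε s Q - bet B (cq m s) ε s⁻¹ Q)) =
      (tors2 (-qI (cq m s) / 3) (-qJ (cq m s) / 27)).card • (bet B (cq m s) ε s P +
        bet B (cq m s) ε s Q) + (nsum B (cq m s) ε s R + nsum B (cq m s) ε s S) -
      ((tors2 (-qI (cq m s) / 3) (-qJ (cq m s) / 27)).card • (bet B (cq m s) ε s⁻¹ P +
        bet B (cq m s) ε s⁻¹ Q) + (nsum B (cq m s) ε s⁻¹ R + nsum B (cq m s) ε s⁻¹ S)) -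
      (nsum B (cq m s) ε s R - nsum B (cq m s) ε s⁻¹ R +
        (nsum B (cq m s) ε s S - nsum B (cq m s) ε s⁻¹ S)) := by
    rw [smul_add, smul_add, smul_add, smul_sub, smul_sub]
    abel
  rw [h6]
  exact r5

/-- **The difference.** -/
theorem TD.diff (T : TD m B s ε)
    (hJ : ∀ P : (Wq (cq m s)).Point, ¬ InF (cl0 {s}) P →
      nsum B (cq m s) ε s P + nsum B (cq m s) ε s⁻¹ (-P) ∈ stableRelations K N)
    {P : (Wq (cq m s)).Point} (hP : ¬ InF (cl0 {s}) P) :
    (8 : ℤ) • (bet B (cq m s) ε s P - bet B (cq m s) ε s⁻¹ P) ∈ stableRelations K N := by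
  classical
  set κ := cl0 ({s} : Set N) with hκ
  have hκc : Closed κ := closed_cl0 _
  have a0 : -qI (cq m s) / 3 ∈ κ := T.amem
  have b0 : -qJ (cq m s) / 27 ∈ κ := T.bmem
  obtain ⟨x, y, h, hPx⟩ : ∃ x y, ∃ h, P = Point.some x y h := by
    rcases P with (_ | ⟨x, y, h⟩)
    · exact absurd (inF_zero _) hP
    · exact ⟨x, y, h, rfl⟩
  have hx : x ∉ κ := by
    rwa [hPx, inF_iff hκc a0 b0] at hP
  obtain ⟨x', hx'⟩ := exists_notMem1 T.deg s x
  obtain ⟨y', h', Q, hQ⟩ := exists_pt T.disc x'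
  have gQ : ¬ InF κ Q := by
    rw [hQ, inF_iff hκc a0 b0]
    exact fun h0 => hx' (le_clo _ _ h0)
  obtain ⟨h'', hQn⟩ := neg_some' h'
  have r1 := T.two_points hJ hx hx' ⟨y, h, hPx⟩ ⟨y', h', hQ⟩
  have r2 := T.two_points hJ hx hx' ⟨y, h, hPx⟩ ⟨-y', h'', (congrArg Neg.neg hQ).trans hQn⟩
  have q1 := T.rel_neg (e := s) (Or.inl rfl) gQ
  have q2 := T.rel_neg (e := s⁻¹) (Or.inr rfl) gQ
  obtain ⟨n, hn⟩ := card_tors2 (a := -qI (cq m s) / 3) (b := -qJ (cq m s) / 27)
  have hle := card_tors2_le (a := -qI (cq m s) / 3) (b := -qJ (cq m s) / 27)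
  rw [hn] at r1 r2 hle
  have hn2 : n ≤ 2 := by
    by_contra h0
    have h3 : 2 ^ 3 ≤ 2 ^ n := Nat.pow_le_pow_right (by norm_num) (by omega)
    omega
  have r3 := sub_mem (add_mem r1 r2) (AddSubgroup.nsmul_mem _ (sub_mem q1 q2) (2 ^ n))
  have r4 := AddSubgroup.nsmul_mem _ r3 (2 ^ (2 - n))
  have h6 : 2 ^ (2 - n) • (2 ^ n • ((bet B (cq m s) ε s P - bet B (cq m s) ε s⁻¹ P) +
        (bet B (cq m s) ε s Q - bet B (cq m s) ε s⁻¹ Q)) +
      2 ^ n • ((bet B (cq m s) ε s P - bet B (cq m s) ε s⁻¹ P) +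
        (bet B (cq m s) ε s (-Q) - bet B (cq m s) ε s⁻¹ (-Q))) -
      2 ^ n • (bet B (cq m s) ε s Q + bet B (cq m s) ε s (-Q) -
        (bet B (cq m s) ε s⁻¹ Q + bet B (cq m s) ε s⁻¹ (-Q)))) =
      (2 ^ (2 - n) * 2 ^ n) • ((bet B (cq m s) ε s P - bet B (cq m s) ε s⁻¹ P) +
        (bet B (cq m s) ε s P - bet B (cq m s) ε s⁻¹ P)) := by
    rw [mul_smul, ← smul_add, ← smul_sub]
    congr 2
    abel
  rw [h6, ← pow_add, Nat.sub_add_cancel hn2, ← two_nsmul, ← mul_smul] at r4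
  exact_mod_cast r4

end

end Vale.Agent.P297.G4
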