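import Vale.Agent.P297.H424.G4.TSide
import Vale.Agent.P297.H600.JRel
import Vale.Agent.P297.H600.BigOf
import Vale.Agent.P297.H160.FourK
import Vale.Agent.P297.H55.Quart

/-!
Points of the general numerical Godeaux surface with torsion `ℤ/4`, up to a factor.
-/

set_option linter.unusedSectionVars false

open IntermediateField Polynomial AlgebraicGeometry CategoryTheory

namespace Vale.Agent.P297.G4

open Vale.Agent.P297 Vale.Agent.P297.Gen Vale.Agent.P297.H839 Vale.Agent.P297.H600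
open Vale.Agent.P297.H729 Vale.Agent.P297.Z3

section

variable {K N : Type} [Field K] [Algebra ℂ K] [Field N] [Algebra ℂ N]

/-- **[TS]** -/
theorem tside [IsAlgClosed N] {m : Fin 11 → ℂ} {D : Fin 5 → Fin 3 → ℂ}
    (hD : ∀ l : ℂ, qI (H160.dq D l) = ID m l 1 ∧ qJ (H160.dq D l) = JD m l 1)
    (hj : ∀ α β : ℂ, (α ≠ 0 ∨ β ≠ 0) →
      C α * qI (H160.dq (fun i j => (C (D i j) : ℂ[X])) X) ^ 3 ≠
        C β * qJ (H160.dq (fun i j => (C (D i j) : ℂ[X])) X) ^ 2)
    (h4 : Algebra.trdeg ℂ N = 4) (B : N → N → N → ((K →ₐ[ℂ] N) →₀ ℤ))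
    (hB : ∀ (g : N ≃ₐ[ℂ] N) (e X Y : N), act g.toAlgHom (B e X Y) = B (g e) (g X) (g Y))
    {s X Y : N} (hg : Gen m s X Y) :
    (8 : ℤ) • (B s X Y - B s⁻¹ X Y) ∈ stableRelations K N := by
  classical
  have : CharZero N := charZero_of_injective_algebraMap (algebraMap ℂ N).injective
  exact tside_aux hD hj h4 B hB (fun s ε T P hP => T.jac_rel hD hj hP) hg

/-- two more variables -/
theorem exists_field {A Ω : Type} [Field A] [Algebra ℂ A] [Field Ω] [Algebra ℂ Ω] [Algebra A Ω]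
    [IsScalarTower ℂ A Ω] (a b : A) (hind : AlgebraicIndependent ℂ ![a, b])
    (halg : ∀ z : A, IsAlgebraic (IntermediateField.adjoin ℂ {a, b}) z)
    (s : Fin 2 → Ω) (hs : IsTranscendenceBasis A s) :
    AlgebraicIndependent ℂ ![algebraMap A Ω a, algebraMap A Ω b, s 0, s 1] ∧
      Algebra.IsAlgebraic (IntermediateField.adjoin ℂ
        (Set.range ![algebraMap A Ω a, algebraMap A Ω b, s 0, s 1])) Ω ∧
      Algebra.trdeg ℂ Ω = 4 := by
  have h1 := (basis_pair hind halg).sumElim_comp hs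
  let e : Fin 4 → Fin 2 ⊕ Fin 2 := ![Sum.inr 0, Sum.inr 1, Sum.inl 0, Sum.inl 1]
  have he : Function.Injective e := by decide
  have hes : Function.Surjective e := by decide
  have hu : ![algebraMap A Ω a, algebraMap A Ω b, s 0, s 1] =
      Sum.elim s (algebraMap A Ω ∘ ![a, b]) ∘ e := by
    funext i
    fin_cases i <;> rfl
  have hr : Set.range ![algebraMap A Ω a, algebraMap A Ω b, s 0, s 1] =
      Set.range (Sum.elim s (algebraMap A Ω ∘ ![a, b])) := by
    rw [hu]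
    exact hes.range_comp _
  refine ⟨?_, ?_, ?_⟩
  · rw [hu]
    exact h1.1.comp e he
  · have h2 := h1.isAlgebraic_field
    rwa [← hr] at h2
  · have h3 := h1.cardinalMk_eq_trdeg
    rw [← h3, Cardinal.mk_sum, Cardinal.mk_fin]
    norm_num

/-- the function field is algebraic over `ℂ(u, w)` -/
theorem alg_top {m : Fin 11 → ℂ} {u w p q : K}
    (hs : OnSurf (fun i => algebraMap ℂ K (m i)) u w p q)
    (hind : AlgebraicIndependent ℂ ![u, w])
    (htop : IntermediateField.adjoin ℂ {u, w, p, q} = ⊤) (m0 : m 0 ≠ 0) (z : K) :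
    IsAlgebraic (IntermediateField.adjoin ℂ {u, w}) z := by
  have h4 := H160.finrank_four m m0 hind htop hs
  have : FiniteDimensional (IntermediateField.adjoin ℂ {u, w}) K :=
    FiniteDimensional.of_finrank_pos (by rw [h4]; norm_num)
  exact Algebra.IsAlgebraic.isAlgebraic z

/-- **The stable relation.** -/
theorem stable32 {m : Fin 11 → ℂ} {D : Fin 5 → Fin 3 → ℂ}
    (hD : ∀ l : ℂ, qI (H160.dq D l) = ID m l 1 ∧ qJ (H160.dq D l) = JD m l 1)
    (hj : ∀ α β : ℂ, (α ≠ 0 ∨ β ≠ 0) →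
      C α * qI (H160.dq (fun i j => (C (D i j) : ℂ[X])) X) ^ 3 ≠
        C β * qJ (H160.dq (fun i j => (C (D i j) : ℂ[X])) X) ^ 2)
    (m0 : m 0 ≠ 0) (m1 : m 1 ≠ 0) (m7 : m 7 ≠ 0) (m9 : m 9 ≠ 0) {u w p q : K}
    (hs : OnSurf (fun i => algebraMap ℂ K (m i)) u w p q)
    (hind : AlgebraicIndependent ℂ ![u, w])
    (htop : IntermediateField.adjoin ℂ {u, w, p, q} = ⊤) :
    Finsupp.single (IsScalarTower.toAlgHom ℂ K (BigField K 2)) (32 : ℤ) ∈
      stableRelations K (BigField K 2) := by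
  obtain ⟨h1, h2, h3⟩ := exists_field (Ω := BigField K 2) u w hind
    (alg_top hs hind htop m0) (bigVar K 2) (bigVar_basis K 2)
  refine H160.kside m m0 m1 m7 m9 hs hind htop _ (bigVar K 2 0) (bigVar K 2 1) h1 h2 ?_
  intro s X Y hg
  exact tside hD hj h3 (Bs u w p q m) (fun g e X Y => act_Bs g u w p q m e X Y) hg

/-- **Points, up to the factor `32`.** -/
theorem points32 {m : Fin 11 → ℂ} {D : Fin 5 → Fin 3 → ℂ}
    (hD : ∀ l : ℂ, qI (H160.dq D l) = ID m l 1 ∧ qJ (H160.dq D l) = JD m l 1)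
    (hj : ∀ α β : ℂ, (α ≠ 0 ∨ β ≠ 0) →
      C α * qI (H160.dq (fun i j => (C (D i j) : ℂ[X])) X) ^ 3 ≠
        C β * qJ (H160.dq (fun i j => (C (D i j) : ℂ[X])) X) ^ 2)
    (m0 : m 0 ≠ 0) (m1 : m 1 ≠ 0) (m7 : m 7 ≠ 0) (m9 : m 9 ≠ 0) {u w p q : K}
    (hs : OnSurf (fun i => algebraMap ℂ K (m i)) u w p q)
    (hind : AlgebraicIndependent ℂ ![u, w])
    (htop : IntermediateField.adjoin ℂ {u, w, p, q} = ⊤)
    {S : Scheme.{0}} [IsIntegral S] (f : S ⟶ Spec (.of ℂ)) [IsProper f]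
    (hS : IsFunctionFieldOf f K) (x y : ClosedPt S) :
    (32 : ℤ) • (Finsupp.single x (1 : ℤ) - Finsupp.single y 1) ∈ Rat f :=
  criterion_big _ 32 (stable32 hD hj m0 m1 m7 m9 hs hind htop) f hS x y

end

end Vale.Agent.P297.G4
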