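import Vale.Agent.P297.H424.G4.TrA
import Vale.Agent.P297.H424.G4.Iface
import Vale.Agent.P297.H600.QTw

/-!
Cycles of embeddings attached to the points of the jacobian of the quartic, and the action of the
automorphisms.
-/

set_option linter.unusedSectionVars false

open IntermediateField Polynomial WeierstrassCurve WeierstrassCurve.Affine

namespace Vale.Agent.P297.G4

open Vale.Agent.P297 Vale.Agent.P297.Gen Vale.Agent.P297.H839 Vale.Agent.P297.H600
open Vale.Agent.P297.Z3

section Two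

variable {k : Type} [Field k] [DecidableEq k] [CharZero k] {a b : k}

theorem two_coord {x y : k} (h : (wc a b).toAffine.Nonsingular x y)
    (h2 : (2 : ℕ) • Point.some x y h = 0) : y = 0 := by
  have h1 : Point.some x y h = -Point.some x y h := by
    rw [eq_neg_iff_add_eq_zero, ← h2, two_nsmul]
  rw [Point.neg_some, Point.some.injEq, wc_negY] at h1
  have h4 : (2 : k) * y = 0 := by linear_combination h1.2
  exact (mul_eq_zero.1 h4).resolve_left two_ne_zero

/-- the cubic polynomial -/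
noncomputable def cubicP (a b : k) : k[X] := X ^ 3 + C a * X + C b

theorem cubicP_ne (a b : k) : cubicP a b ≠ 0 := by
  intro h0
  have h1 := congrArg (fun p => Polynomial.coeff p 3) h0
  simp only [cubicP, coeff_add, coeff_C_mul, coeff_X_pow, coeff_X, coeff_C, coeff_zero] at h1
  norm_num at h1

theorem cubicP_deg (a b : k) : (cubicP a b).natDegree ≤ 3 := by
  unfold cubicP
  compute_degree

theorem tors2_subset : {P : (wc a b).toAffine.Point | (2 : ℕ) • P = 0} ⊆
    ({0} ∪ ⋃ x ∈ (cubicP a b).roots.toFinset, {P | ∃ h, P = Point.some x 0 h}) := by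
  intro P hP
  rcases P with (_ | ⟨x, y, h⟩)
  · exact Or.inl rfl
  · right
    have h1 : y = 0 := two_coord h hP
    subst h1
    rw [Set.mem_iUnion₂]
    refine ⟨x, ?_, h, rfl⟩
    rw [Multiset.mem_toFinset, Polynomial.mem_roots (cubicP_ne a b), Polynomial.IsRoot.def]
    have h2 := wc_equation.1 h.1
    simp only [cubicP, eval_add, eval_mul, eval_pow, eval_X, eval_C]
    linear_combination -h2

theorem single_finite (x y : k) :
    {P : (wc a b).toAffine.Point | ∃ h, P = Point.some x y h}.Subsingleton := by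
  rintro P ⟨h, rfl⟩ Q ⟨h', rfl⟩
  rfl

theorem two_finite : {P : (wc a b).toAffine.Point | (2 : ℕ) • P = 0}.Finite := by
  refine Set.Finite.subset ?_ tors2_subset
  refine (Set.finite_singleton _).union ?_
  exact Set.Finite.biUnion (Finset.finite_toSet _) fun x _ => (single_finite x 0).finite

/-- the points of order dividing two -/
noncomputable def tors2 (a b : k) : Finset (wc a b).toAffine.Point :=
  (two_finite (a := a) (b := b)).toFinset

theorem mem_tors2 {P : (wc a b).toAffine.Point} : P ∈ tors2 a b ↔ (2 : ℕ) • P = 0 := by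
  unfold tors2
  rw [Set.Finite.mem_toFinset]
  rfl

theorem card_tors2 : ∃ n : ℕ, (tors2 a b).card = 2 ^ n := by
  let H : AddSubgroup (wc a b).toAffine.Point := (nsmulAddMonoidHom 2).ker
  have hH : ∀ P, P ∈ H ↔ (2 : ℕ) • P = 0 := fun P => Iff.rfl
  have hfin : Finite H := by
    have h1 : (H : Set (wc a b).toAffine.Point).Finite := two_finite (a := a) (b := b)
    exact h1
  have hp : IsPGroup 2 (Multiplicative H) := by
    intro g
    refine ⟨1, ?_⟩
    have h1 : (2 : ℕ) • (Multiplicative.toAdd g) = 0 := by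
      apply Subtype.ext
      exact (Multiplicative.toAdd g).2
    rw [pow_one]
    exact h1
  have : Fact (Nat.Prime 2) := ⟨Nat.prime_two⟩
  obtain ⟨n, hn⟩ := (IsPGroup.iff_card (p := 2) (G := Multiplicative H)).1 hp
  refine ⟨n, ?_⟩
  rw [← hn]
  have h2 : Nat.card (Multiplicative H) = Nat.card H := rfl
  rw [h2]
  have h3 : Nat.card H = (tors2 a b).card := by
    rw [← Nat.card_eq_finsetCard]
    refine Nat.card_congr (Equiv.subtypeEquivRight fun P => ?_)
    rw [mem_tors2]
    exact hH P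
  exact h3.symm

theorem card_tors2_le : (tors2 a b).card ≤ 4 := by
  classical
  let F : (wc a b).toAffine.Point → Option k
    | 0 => none
    | .some x _ _ => some x
  have h3 : (tors2 a b).card ≤ (((cubicP a b).roots.toFinset.image some) ∪ {none}).card := by
    refine Finset.card_le_card_of_injOn F ?_ ?_
    · intro P hP
      have hP' := mem_tors2.1 hP
      rcases P with (_ | ⟨x, y, h⟩)
      · exact Finset.mem_coe.2 (Finset.mem_union_right _ (Finset.mem_singleton_self _))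
      · refine Finset.mem_coe.2 (Finset.mem_union_left _ (Finset.mem_image_of_mem _ ?_))
        have h1 : y = 0 := two_coord h hP'
        subst h1
        rw [Multiset.mem_toFinset, Polynomial.mem_roots (cubicP_ne a b), Polynomial.IsRoot.def]
        have h2 := wc_equation.1 h.1
        simp only [cubicP, eval_add, eval_mul, eval_pow, eval_X, eval_C]
        linear_combination -h2
    · intro P hP Q hQ hPQ
      have hP' := mem_tors2.1 (Finset.mem_coe.1 hP)
      have hQ' := mem_tors2.1 (Finset.mem_coe.1 hQ)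
      rcases P with (_ | ⟨x, y, h⟩) <;> rcases Q with (_ | ⟨x', y', h'⟩)
      · rfl
      · exact absurd hPQ (by simp [F])
      · exact absurd hPQ (by simp [F])
      · have h1 : y = 0 := two_coord h hP'
        have h2 : y' = 0 := two_coord h' hQ'
        have h4 : x = x' := Option.some.inj hPQ
        subst h1 h2 h4
        rfl
  have h4 : (((cubicP a b).roots.toFinset.image some) ∪ {none} : Finset (Option k)).card ≤
      3 + 1 := by
    refine (Finset.card_union_le _ _).trans ?_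
    rw [Finset.card_singleton]
    apply Nat.add_le_add_right
    refine Finset.card_image_le.trans ?_
    exact ((Multiset.toFinset_card_le _).trans (Polynomial.card_roots' _)).trans (cubicP_deg a b)
  omega

theorem neg_mem_tors2 {T : (wc a b).toAffine.Point} (hT : (2 : ℕ) • T = 0) : -T = T := by
  rw [neg_eq_iff_add_eq_zero, ← two_nsmul, hT]

end Two

section

variable {N : Type} [Field N] [Algebra ℂ N] [CharZero N]

/-- the quartic at `s` -/
abbrev cq (m : Fin 11 → ℂ) (s : N) : Fin 5 → N := fc (am N m) (lv s)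

theorem lv_fix {s : N} (hs : s ≠ 0) {g : N ≃ₐ[ℂ] N} (hg : g s = s ∨ g s = s⁻¹) :
    g (lv s) = lv s := by
  have h1 := map_lv g.toAlgHom s
  change g (lv s) = lv (g s) at h1
  rw [h1]
  rcases hg with h | h
  · rw [h]
  · rw [h, lv_inv hs]

theorem cq_fix {s : N} (hs : s ≠ 0) (m : Fin 11 → ℂ) {g : N ≃ₐ[ℂ] N}
    (hg : g s = s ∨ g s = s⁻¹) (i : Fin 5) : g (cq m s i) = cq m s i := by
  have h1 := map_fc g.toAlgHom m (lv s) i
  change g (fc (am N m) (lv s) i) = fc (am N m) (g (lv s)) i at h1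
  rw [h1, lv_fix hs hg]

theorem map_qI (g : N →+* N) (c : Fin 5 → N) : g (qI c) = qI (fun i => g (c i)) := by
  simp only [qI, map_add, map_sub, map_mul, map_pow, map_ofNat]

theorem map_qJ (g : N →+* N) (c : Fin 5 → N) : g (qJ c) = qJ (fun i => g (c i)) := by
  simp only [qJ, map_add, map_sub, map_mul, map_pow, map_ofNat]

theorem map_qv (g : N →+* N) (c : Fin 5 → N) (x : N) :
    g (qv c x) = qv (fun i => g (c i)) (g x) := by
  simp only [qv, map_add, map_mul, map_pow]

theorem fixW {c : Fin 5 → N} {g : N ≃ₐ[ℂ] N} (hg : ∀ i, g (c i) = c i) :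
    (g : N →+* N) (-qI c / 3) = -qI c / 3 ∧ (g : N →+* N) (-qJ c / 27) = -qJ c / 27 := by
  have h1 : (fun i => (g : N →+* N) (c i)) = c := funext hg
  refine ⟨?_, ?_⟩
  · rw [map_div₀, map_neg, map_qI, h1, map_ofNat]
  · rw [map_div₀, map_neg, map_qJ, h1, map_ofNat]

/-- the action on the points -/
noncomputable def gpt {c : Fin 5 → N} (g : N ≃ₐ[ℂ] N) (hg : ∀ i, g (c i) = c i) :
    (Wq c).Point → (Wq c).Point := gfun (g : N →+* N) (fixW hg)

theorem map_q1 {c : Fin 5 → N} {g : N ≃ₐ[ℂ] N} (hg : ∀ i, g (c i) = c i) (ε : N) :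
    g (q1 c ε) = q1 c (g ε) := by
  simp only [q1, map_add, map_mul, map_pow, hg, map_ofNat]

theorem map_q2 {c : Fin 5 → N} {g : N ≃ₐ[ℂ] N} (hg : ∀ i, g (c i) = c i) (ε : N) :
    g (q2 c ε) = q2 c (g ε) := by
  simp only [q2, map_add, map_mul, map_pow, hg, map_ofNat]

theorem map_aX {c : Fin 5 → N} {g : N ≃ₐ[ℂ] N} (hg : ∀ i, g (c i) = c i) (ε : N)
    (P : (Wq c).Point) : g (aX c ε P) = aX c (g ε) (gpt g hg P) := by
  rcases P with (_ | ⟨x, y, h⟩)
  · rfl
  · change g (ε + q1 c ε / (x - q2 c ε / 3)) = g ε + q1 c (g ε) / (g x - q2 c (g ε) / 3)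
    rw [map_add, map_div₀, map_sub, map_div₀, map_q1 hg, map_q2 hg, map_ofNat]

theorem map_aY {c : Fin 5 → N} {g : N ≃ₐ[ℂ] N} (hg : ∀ i, g (c i) = c i) (ε : N)
    (P : (Wq c).Point) : g (aY c ε P) = aY c (g ε) (gpt g hg P) := by
  rcases P with (_ | ⟨x, y, h⟩)
  · exact map_zero g
  · change g (q1 c ε * y / (x - q2 c ε / 3) ^ 2) =
      q1 c (g ε) * g y / (g x - q2 c (g ε) / 3) ^ 2
    rw [map_div₀, map_pow, map_sub, map_div₀, map_mul, map_q1 hg, map_q2 hg, map_ofNat]

variable [IsAlgClosed N]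

theorem lv_mem {s : N} {M : IntermediateField ℂ N} (h : s ∈ M) : lv s ∈ M :=
  div_mem (pow_mem (add_mem (one_mem _) h) 2) h

theorem am_mem (M : IntermediateField ℂ N) (m : Fin 11 → ℂ) (i : Fin 11) : am N m i ∈ M :=
  M.algebraMap_mem _

theorem cq_mem {l : N} {M : IntermediateField ℂ N} (h : l ∈ M) (m : Fin 11 → ℂ) (i : Fin 5) :
    fc (am N m) l i ∈ M := by
  have h0 : fB0 (am N m) l ∈ M :=
    sub_mem (mul_mem (mul_mem h (sub_mem (ofNat_mem M 4) h)) (am_mem M m 5))
      (mul_mem h (pow_mem (am_mem M m 10) 2))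
  have h1 : fB1 (am N m) l ∈ M :=
    add_mem (mul_mem (mul_mem h (sub_mem (ofNat_mem M 4) h)) (am_mem M m 4))
      (mul_mem h (mul_mem (am_mem M m 9) (am_mem M m 10)))
  have h2 : fB2 (am N m) l ∈ M :=
    sub_mem (mul_mem (sub_mem (ofNat_mem M 4) h) (am_mem M m 6)) (pow_mem (am_mem M m 9) 2)
  have hE : fE (am N m) l ∈ M :=
    neg_mem (mul_mem (mul_mem (mul_mem (ofNat_mem M 4) (am_mem M m 1))
      (pow_mem (sub_mem (ofNat_mem M 4) h) 2)) h)
  fin_cases i
  · exact add_mem (pow_mem h0 2) (mul_mem hE (mul_mem (am_mem M m 0) (pow_mem h 2)))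
  · exact add_mem (mul_mem (mul_mem (ofNat_mem M 2) h0) h1)
      (mul_mem hE (mul_mem (am_mem M m 7) h))
  · exact add_mem (add_mem (pow_mem h1 2) (mul_mem (mul_mem (ofNat_mem M 2) h0) h2))
      (mul_mem hE (mul_mem (am_mem M m 3) h))
  · exact add_mem (mul_mem (mul_mem (ofNat_mem M 2) h1) h2) (mul_mem hE (am_mem M m 8))
  · exact add_mem (pow_mem h2 2) (mul_mem hE (am_mem M m 2))

theorem a_mem {M : IntermediateField ℂ N} {c : Fin 5 → N} (hc : ∀ i, c i ∈ M) :
    -qI c / 3 ∈ M := by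
  unfold qI
  exact div_mem (neg_mem (add_mem (sub_mem (mul_mem (ofNat_mem M 12) (mul_mem (hc _) (hc _)))
    (mul_mem (ofNat_mem M 3) (mul_mem (hc _) (hc _)))) (pow_mem (hc _) 2))) (ofNat_mem M 3)

theorem b_mem {M : IntermediateField ℂ N} {c : Fin 5 → N} (hc : ∀ i, c i ∈ M) :
    -qJ c / 27 ∈ M := by
  unfold qJ
  refine div_mem (neg_mem (sub_mem (sub_mem (sub_mem (add_mem ?_ ?_) ?_) ?_) ?_)) (ofNat_mem M 27)
  · exact mul_mem (ofNat_mem M 72) (mul_mem (mul_mem (hc _) (hc _)) (hc _))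
  · exact mul_mem (ofNat_mem M 9) (mul_mem (mul_mem (hc _) (hc _)) (hc _))
  · exact mul_mem (ofNat_mem M 27) (mul_mem (hc _) (pow_mem (hc _) 2))
  · exact mul_mem (ofNat_mem M 27) (mul_mem (pow_mem (hc _) 2) (hc _))
  · exact mul_mem (ofNat_mem M 2) (pow_mem (hc _) 3)

theorem q1_mem {M : IntermediateField ℂ N} {c : Fin 5 → N} (hc : ∀ i, c i ∈ M) {ε : N}
    (hε : ε ∈ M) : q1 c ε ∈ M :=
  add_mem (add_mem (add_mem (hc _) (mul_mem (mul_mem (ofNat_mem M 2) (hc _)) hε))
    (mul_mem (mul_mem (ofNat_mem M 3) (hc _)) (pow_mem hε 2)))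
    (mul_mem (mul_mem (ofNat_mem M 4) (hc _)) (pow_mem hε 3))

theorem q2_mem {M : IntermediateField ℂ N} {c : Fin 5 → N} (hc : ∀ i, c i ∈ M) {ε : N}
    (hε : ε ∈ M) : q2 c ε ∈ M :=
  add_mem (add_mem (hc _) (mul_mem (mul_mem (ofNat_mem M 3) (hc _)) hε))
    (mul_mem (mul_mem (ofNat_mem M 6) (hc _)) (pow_mem hε 2))

/-- roots of the quartic are in every closed field that contains the coefficients -/
theorem root_mem {M : IntermediateField ℂ N} (hM : Closed M) {c : Fin 5 → N}
    (hc : ∀ i, c i ∈ M) (hne : ∃ i, c i ≠ 0) {ε : N} (hε : qv c ε = 0) : ε ∈ M := by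
  apply hM
  refine isAlgebraic_of_coeff (p := C (c 0) * X ^ 0 + C (c 1) * X ^ 1 + C (c 2) * X ^ 2 +
    C (c 3) * X ^ 3 + C (c 4) * X ^ 4) ?_ ?_ ?_
  · intro n
    simp only [coeff_add]
    exact add_mem (add_mem (add_mem (add_mem (C_mul_pow_coeff_mem (hc _) _ _)
      (C_mul_pow_coeff_mem (hc _) _ _)) (C_mul_pow_coeff_mem (hc _) _ _))
      (C_mul_pow_coeff_mem (hc _) _ _)) (C_mul_pow_coeff_mem (hc _) _ _)
  · intro h5
    obtain ⟨i, hi⟩ := hne
    apply hi
    have k : ∀ n, coeff (C (c 0) * X ^ 0 + C (c 1) * X ^ 1 + C (c 2) * X ^ 2 +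
      C (c 3) * X ^ 3 + C (c 4) * X ^ 4) n = 0 := fun n => by rw [h5, coeff_zero]
    have k0 := k 0
    have k1 := k 1
    have k2 := k 2
    have k3 := k 3
    have k4 := k 4
    simp only [coeff_add, coeff_C_mul, coeff_X_pow] at k0 k1 k2 k3 k4
    norm_num at k0 k1 k2 k3 k4
    fin_cases i
    · exact k0
    · exact k1
    · exact k2
    · exact k3
    · exact k4
  · simp only [eval_add, eval_mul, eval_C, eval_pow, eval_X]
    unfold qv at hε
    linear_combination hε

/-- the disc of the quartic is not zero: some coefficient is not zero -/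
theorem coeff_ne {c : Fin 5 → N} (hc : 4 * qI c ^ 3 ≠ qJ c ^ 2) : ∃ i, c i ≠ 0 := by
  by_contra hcon
  push Not at hcon
  apply hc
  unfold qI qJ
  rw [hcon 0, hcon 1, hcon 2, hcon 3, hcon 4]
  ring

/-- generic points are finite points -/
theorem gen_fin {M : IntermediateField ℂ N} {c : Fin 5 → N} (hc : ∀ i, c i ∈ M)
    (hM : Closed M) {ε : N} (hε : ε ∈ M)
    {P : (Wq c).Point} (hP : ¬ InF M P) : Fin' c ε P := by
  rcases P with (_ | ⟨x, y, h⟩)
  · exact absurd (inF_zero _) hP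
  · refine ⟨x, y, h, rfl, ?_⟩
    rintro rfl
    apply hP
    rw [inF_iff hM (a_mem hc) (b_mem hc)]
    exact div_mem (q2_mem hc hε) (ofNat_mem M 3)

/-- a point with first coordinate `aX` in a closed field -/
theorem aX_mem_iff {M : IntermediateField ℂ N} {c : Fin 5 → N} (hd : 4 * qI c ^ 3 ≠ qJ c ^ 2)
    (hc : ∀ i, c i ∈ M) (hM : Closed M) {ε : N} (hε : ε ∈ M) (hε0 : qv c ε = 0)
    {P : (Wq c).Point} (hP : Fin' c ε P) : aX c ε P ∈ M ↔ InF M P := by
  obtain ⟨x, y, h, rfl, hx⟩ := hP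
  rw [inF_iff hM (a_mem hc) (b_mem hc)]
  have h1 := q1_ne hd hε0
  have h2 : x - q2 c ε / 3 ≠ 0 := sub_ne_zero.2 hx
  have hq1 := q1_mem hc hε
  have hq2 := div_mem (q2_mem hc hε) (ofNat_mem M 3)
  rw [aX_some]
  constructor
  · intro h3
    have h4 := sub_mem h3 hε
    rw [add_sub_cancel_left] at h4
    have h5 : x = q2 c ε / 3 + q1 c ε / (q1 c ε / (x - q2 c ε / 3)) := by
      field_simp
      ring
    rw [h5]
    exact add_mem hq2 (div_mem hq1 h4)
  · intro h3
    exact add_mem hε (div_mem hq1 (sub_mem h3 hq2))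

theorem aX_notMem {M : IntermediateField ℂ N} {c : Fin 5 → N} (hd : 4 * qI c ^ 3 ≠ qJ c ^ 2)
    (hc : ∀ i, c i ∈ M) (hM : Closed M) {ε : N} (hε : ε ∈ M) (hε0 : qv c ε = 0)
    {P : (Wq c).Point} (hP : ¬ InF M P) : aX c ε P ∉ M := by
  rwa [aX_mem_iff hd hc hM hε hε0 (gen_fin hc hM hε hP)]

variable [DecidableEq N]

theorem tors2_inF {M : IntermediateField ℂ N} (hM : Closed M) {a b : N} (ha : a ∈ M)
    (hb : b ∈ M) {P : (wc a b).toAffine.Point} (hP : (2 : ℕ) • P = 0) : InF M P := by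
  rcases P with (_ | ⟨x, y, h⟩)
  · exact inF_zero M
  · have h1 : y = 0 := two_coord h hP
    subst h1
    rw [inF_iff hM ha hb]
    have h2 := wc_equation.1 h.1
    refine quartic_mem hM (c₄ := 0) (c₃ := 1) (c₂ := 0) (c₁ := a)
      (c₀ := b) (zero_mem _) (one_mem _) (zero_mem _) ha hb (Or.inr one_ne_zero) ?_
    linear_combination -h2

/-- halving a point -/
theorem div_two {M : IntermediateField ℂ N} (hM : Closed M) {a b : N} (ha : a ∈ M)
    (hb : b ∈ M) {P : (wc a b).toAffine.Point} (hP : InF M ((2 : ℕ) • P)) : InF M P := by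
  rcases P with (_ | ⟨x, y, h⟩)
  · exact inF_zero M
  · by_cases hy : y = (wc a b).toAffine.negY x y
    · apply tors2_inF hM ha hb
      rw [two_nsmul, Point.add_self_of_Y_eq hy]
    · rw [inF_iff hM ha hb]
      rw [two_nsmul, Point.add_self_of_Y_ne hy] at hP
      obtain ⟨h1, -⟩ := hP _ _ _ rfl
      rw [Affine.slope_of_Y_ne rfl hy, wc_addX, wc_negY] at h1
      rw [wc_negY] at hy
      have hy2 : y - -y ≠ 0 := fun h0 => hy (sub_eq_zero.1 h0)
      simp only [wc] at h1
      obtain ⟨z, hz⟩ : ∃ z, z = ((3 * x ^ 2 + 2 * 0 * x + a - 0 * y) / (y - -y)) ^ 2 - x - x :=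
        ⟨_, rfl⟩
      rw [← hz] at h1
      have heq := wc_equation.1 h.1
      rw [div_pow, eq_sub_iff_add_eq, eq_sub_iff_add_eq, eq_div_iff (pow_ne_zero 2 hy2)] at hz
      refine quartic_mem hM (c₄ := 1) (c₃ := -4 * z) (c₂ := -2 * a) (c₁ := -8 * b - 4 * a * z)
        (c₀ := a ^ 2 - 4 * b * z) (one_mem _) (mul_mem (neg_mem (ofNat_mem M 4)) h1)
        (mul_mem (neg_mem (ofNat_mem M 2)) ha)
        (sub_mem (mul_mem (neg_mem (ofNat_mem M 8)) hb)
          (mul_mem (mul_mem (ofNat_mem M 4) ha) h1))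
        (sub_mem (pow_mem ha 2) (mul_mem (mul_mem (ofNat_mem M 4) hb) h1))
        (Or.inl one_ne_zero) ?_
      linear_combination -hz + (4 * z + 8 * x) * heq

theorem gen_add2 {M : IntermediateField ℂ N} (hM : Closed M) {a b : N} (ha : a ∈ M)
    (hb : b ∈ M) {P T : (wc a b).toAffine.Point} (hP : ¬ InF M P) (hT : (2 : ℕ) • T = 0) :
    ¬ InF M (P + T) := by
  intro h
  apply hP
  have h1 : P = P + T - T := by abel
  rw [h1]
  exact h.sub ha (tors2_inF hM ha hb hT)

end

end Vale.Agent.P297.G4
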