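import Mathlib

/-!
Polynomial maps whose Jacobian matrix has full rank at a point: the components are algebraically
independent, and the image contains the complement of a hypersurface.
-/

namespace Vale.Agent.P297.G4

open MvPolynomial

section

variable {k : Type} [Field k]

/-- the chain rule -/
theorem der_aeval {n : ℕ} {A : Type} [CommRing A] [Algebra k A] (D : Derivation k A A)
    (x : Fin n → A) (P : MvPolynomial (Fin n) k) :
    D (aeval x P) = ∑ a, aeval x (pderiv a P) * D (x a) := by
  induction P using MvPolynomial.induction_on with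
  | C c =>
    rw [aeval_C, Derivation.map_algebraMap]
    refine (Finset.sum_eq_zero fun a _ => ?_).symm
    rw [pderiv_C, map_zero, zero_mul]
  | add f g hf hg =>
    rw [map_add, map_add, hf, hg, ← Finset.sum_add_distrib]
    refine Finset.sum_congr rfl fun a _ => ?_
    rw [map_add, map_add, add_mul]
  | mul_X f c hf =>
    have h1 : ∀ a, aeval x (pderiv a (f * X c)) * D (x a) =
        x c * (aeval x (pderiv a f) * D (x a)) +
          (if c = a then aeval x f * D (x a) else 0) := by
      intro a
      rw [pderiv_mul, map_add, map_mul, map_mul, aeval_X, pderiv_X]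
      by_cases hca : c = a
      · subst hca
        rw [if_pos rfl, Pi.single_eq_same, map_one]
        ring
      · rw [if_neg hca, Pi.single_eq_of_ne (by simpa using hca)]
        rw [map_zero]
        ring
    simp only [h1]
    rw [Finset.sum_add_distrib, ← Finset.mul_sum, ← hf, Finset.sum_ite_eq,
      if_pos (Finset.mem_univ c), map_mul, aeval_X, Derivation.leibniz, smul_eq_mul, smul_eq_mul]
    ring

theorem totalDegree_pderiv {n : ℕ} (P : MvPolynomial (Fin n) k) (i : Fin n) (d : ℕ)
    (h : P.totalDegree ≤ d + 1) : (pderiv i P).totalDegree ≤ d := by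
  refine Finset.sup_le fun s hs => ?_
  rw [mem_support_iff, coeff_pderiv] at hs
  have h1 : s + Finsupp.single i 1 ∈ P.support := by
    rw [mem_support_iff]
    exact left_ne_zero_of_mul hs
  have h2 := (le_totalDegree h1).trans h
  rw [Finsupp.sum_add_index' (fun _ => rfl) (fun _ _ _ => rfl), Finsupp.sum_single_index rfl] at h2
  exact Nat.le_of_succ_le_succ h2

theorem eq_C_of_pderiv [CharZero k] {n : ℕ} (P : MvPolynomial (Fin n) k)
    (h : ∀ i, pderiv i P = 0) : P = C (coeff 0 P) := by
  ext s
  rw [coeff_C]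
  split_ifs with hs
  · rw [hs]
  · have hs' : s ≠ 0 := fun h0 => hs h0.symm
    obtain ⟨i, hi⟩ := Finsupp.ne_iff.1 hs'
    rw [Finsupp.coe_zero, Pi.zero_apply] at hi
    have h1 := congrArg (coeff (s - Finsupp.single i 1)) (h i)
    rw [coeff_pderiv, coeff_zero] at h1
    have h2 : s - Finsupp.single i 1 + Finsupp.single i 1 = s := by
      ext j
      by_cases hj : j = i
      · subst hj
        simp only [Finsupp.coe_add, Finsupp.coe_tsub, Pi.add_apply, Pi.sub_apply,
          Finsupp.single_eq_same]
        omega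
      · simp [Finsupp.single_eq_of_ne hj]
    rw [h2] at h1
    rcases mul_eq_zero.1 h1 with h3 | h3
    · exact h3
    · exact absurd h3 (Nat.cast_add_one_ne_zero _)

/-- **Jacobian criterion.** -/
theorem algIndep_of_jacobian [CharZero k] {n m : ℕ} (f : Fin n → MvPolynomial (Fin m) k)
    (e : Fin n → Fin m) (a : Fin m → k)
    (h : (Matrix.of fun i j => eval a (pderiv (e i) (f j))).det ≠ 0) :
    AlgebraicIndependent k f := by
  have hdet : (Matrix.of fun i j => pderiv (e i) (f j)).det ≠ 0 := by
    intro h0
    apply h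
    have h1 := congrArg (eval a) h0
    rw [RingHom.map_det, map_zero] at h1
    exact h1
  have key : ∀ (d : ℕ) (P : MvPolynomial (Fin n) k), P.totalDegree ≤ d → aeval f P = 0 →
      P = 0 := by
    intro d
    induction d with
    | zero =>
      intro P hP h0
      have h1 : P = C (coeff 0 P) := totalDegree_eq_zero_iff_eq_C.1 (Nat.le_zero.1 hP)
      rw [h1, aeval_C] at h0
      rw [h1, (FaithfulSMul.algebraMap_eq_zero_iff k (MvPolynomial (Fin m) k)).1 h0, map_zero]
    | succ d ih =>
      intro P hP h0
      have h1 : ∀ i, ∑ j, (Matrix.of fun i j => pderiv (e i) (f j)) i j *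
          aeval f (pderiv j P) = 0 := by
        intro i
        have h2 := der_aeval (pderiv (R := k) (e i)) f P
        rw [h0, map_zero] at h2
        rw [h2]
        refine Finset.sum_congr rfl fun j _ => ?_
        rw [Matrix.of_apply, mul_comm]
      have h2 : (Matrix.of fun i j => pderiv (e i) (f j)).mulVec
          (fun j => aeval f (pderiv j P)) = 0 := funext h1
      have h3 := Matrix.eq_zero_of_mulVec_eq_zero hdet h2
      have h4 : ∀ j, pderiv j P = 0 := fun j =>
        ih _ (totalDegree_pderiv P j d hP) (congrFun h3 j)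
      have h5 := eq_C_of_pderiv P h4
      rw [h5, aeval_C] at h0
      rw [h5, (FaithfulSMul.algebraMap_eq_zero_iff k (MvPolynomial (Fin m) k)).1 h0, map_zero]
  rw [AlgebraicIndependent, injective_iff_map_eq_zero]
  exact fun P hP => key _ P le_rfl hP

/-- every variable is algebraic over the values of a dominant map -/
theorem exists_relation {n : ℕ} (f : Fin n → MvPolynomial (Fin n) k)
    (hf : AlgebraicIndependent k f) (i : Fin n) :
    ∃ P : Polynomial (MvPolynomial (Fin n) k), P ≠ 0 ∧
      Polynomial.eval₂ (aeval f : MvPolynomial (Fin n) k →ₐ[k] MvPolynomial (Fin n) k).toRingHom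
        (X i) P = 0 := by
  have hbasis : IsTranscendenceBasis k f := by
    apply hf.isTranscendenceBasis_of_trdeg_le_of_finite
    exact (IsTranscendenceBasis.mvPolynomial (Fin n) k).cardinalMk_eq_trdeg.symm.le
  obtain ⟨p, hp0, hp⟩ := hbasis.isAlgebraic.isAlgebraic (X i)
  refine ⟨p.map hf.aevalEquiv.symm.toRingEquiv.toRingHom, ?_, ?_⟩
  · exact (Polynomial.map_ne_zero_iff hf.aevalEquiv.symm.injective).2 hp0
  · rw [Polynomial.eval₂_map]
    rw [Polynomial.aeval_def] at hp
    rw [← hp]
    congr 1
    ext1 x
    change aeval f (hf.aevalEquiv.symm x) = (x : MvPolynomial (Fin n) k)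
    rw [← hf.algebraMap_aevalEquiv, AlgEquiv.apply_symm_apply]
    rfl

/-- The image of a dominant polynomial map contains the complement of a hypersurface. -/
theorem exists_image [IsAlgClosed k] {n : ℕ} (f : Fin n → MvPolynomial (Fin n) k)
    (hf : AlgebraicIndependent k f) : ∃ Q : MvPolynomial (Fin n) k, Q ≠ 0 ∧
      ∀ y : Fin n → k, eval y Q ≠ 0 → ∃ x : Fin n → k, ∀ j, eval x (f j) = y j := by
  classical
  choose P hP0 hP using exists_relation f hf
  refine ⟨∏ i, (P i).leadingCoeff, Finset.prod_ne_zero_iff.2 fun i _ =>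
    Polynomial.leadingCoeff_ne_zero.2 (hP0 i), fun y hy => ?_⟩
  set Q : MvPolynomial (Fin n) k := ∏ i, (P i).leadingCoeff with hQ
  have hQ0 : Q ≠ 0 := Finset.prod_ne_zero_iff.2 fun i _ =>
    Polynomial.leadingCoeff_ne_zero.2 (hP0 i)
  let K := FractionRing (MvPolynomial (Fin n) k)
  let φ : MvPolynomial (Fin n) k →+* K := (algebraMap (MvPolynomial (Fin n) k) K).comp
    (aeval f : MvPolynomial (Fin n) k →ₐ[k] MvPolynomial (Fin n) k).toRingHom
  have hφ : Function.Injective φ :=
    (IsFractionRing.injective (MvPolynomial (Fin n) k) K).comp hf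
  have hφQ : IsUnit (φ Q) := isUnit_iff_ne_zero.2 ((map_ne_zero_iff φ hφ).2 hQ0)
  let A := Localization.Away Q
  let φ' : A →+* K := IsLocalization.Away.lift Q hφQ
  have hφ' : ∀ r, φ' (algebraMap _ A r) = φ r := fun r => IsLocalization.Away.lift_eq Q hφQ r
  have hinj : Function.Injective φ' := by
    rw [injective_iff_map_eq_zero]
    intro a ha
    obtain ⟨⟨r, v⟩, hrv⟩ := IsLocalization.surj (Submonoid.powers Q) a
    have h1 := congrArg φ' hrv
    rw [map_mul, ha, zero_mul, hφ'] at h1
    have h2 : r = 0 := hφ (by rw [← h1, map_zero])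
    have h3 : a * algebraMap (MvPolynomial (Fin n) k) A v = 0 := by
      rw [show a * algebraMap (MvPolynomial (Fin n) k) A v = _ from hrv, h2, map_zero]
    exact (IsLocalization.map_units A v).mul_left_eq_zero.1 h3
  let θ : A →+* k := IsLocalization.Away.lift Q (g := eval y) (isUnit_iff_ne_zero.2 hy)
  have hθ : ∀ r, θ (algebraMap _ A r) = eval y r := fun r =>
    IsLocalization.Away.lift_eq Q (isUnit_iff_ne_zero.2 hy) r
  let algAK : Algebra A K := φ'.toAlgebra
  let D := integralClosure A K
  have hker : RingHom.ker (algebraMap A D) ≤ RingHom.ker θ := by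
    intro a ha
    rw [RingHom.mem_ker] at ha ⊢
    have h1 : φ' a = 0 := congrArg (fun d : D => (d : K)) ha
    rw [(injective_iff_map_eq_zero φ').1 hinj a h1, map_zero]
  have : (RingHom.ker θ).IsPrime := RingHom.ker_isPrime θ
  obtain ⟨I, hI, hIθ⟩ := Ideal.exists_ideal_over_prime_of_isIntegral_of_isDomain
    (R := A) (S := D) (RingHom.ker θ) hker
  -- the variables are integral
  have hX : ∀ i, algebraMap (MvPolynomial (Fin n) k) K (X i) ∈ D := by
    intro i
    change IsIntegral A _
    have h1 : Polynomial.aeval (algebraMap (MvPolynomial (Fin n) k) K (X i))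
        ((P i).map (algebraMap (MvPolynomial (Fin n) k) A)) = 0 := by
      rw [Polynomial.aeval_def, Polynomial.eval₂_map]
      have h2 := congrArg (algebraMap (MvPolynomial (Fin n) k) K) (hP i)
      rw [map_zero, Polynomial.hom_eval₂] at h2
      rw [← h2]
      congr 1
      exact RingHom.ext fun r => hφ' r
    have h2 := isIntegral_leadingCoeff_smul _ _ h1
    have hu : IsUnit ((P i).map (algebraMap (MvPolynomial (Fin n) k) A)).leadingCoeff := by
      have h3 : ((P i).map (algebraMap (MvPolynomial (Fin n) k) A)).leadingCoeff =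
          algebraMap _ A (P i).leadingCoeff := by
        apply Polynomial.leadingCoeff_map_of_leadingCoeff_ne_zero
        intro h0
        have h4 := congrArg φ' h0
        rw [hφ', map_zero] at h4
        exact (Polynomial.leadingCoeff_ne_zero.2 (hP0 i)) ((injective_iff_map_eq_zero φ).1 hφ _ h4)
      rw [h3]
      have h5 : IsUnit (algebraMap _ A Q) := IsLocalization.Away.algebraMap_isUnit Q
      exact isUnit_of_dvd_unit (map_dvd _ (Finset.dvd_prod_of_mem
        (fun i => (P i).leadingCoeff) (Finset.mem_univ i))) h5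
    obtain ⟨c, hc⟩ := hu
    rw [← hc] at h2
    have h3 := h2.smul ((c⁻¹ : Aˣ) : A)
    rwa [smul_smul, Units.inv_mul, one_smul] at h3
  -- the residue field
  let π : D →+* D ⧸ I := Ideal.Quotient.mk I
  let ρ : k →+* D ⧸ I := (π.comp (algebraMap A D)).comp ((algebraMap (MvPolynomial (Fin n) k) A).comp C)
  have hρ : ∀ a, π (algebraMap A D a) = ρ (θ a) := by
    intro a
    have h1 : a - algebraMap (MvPolynomial (Fin n) k) A (C (θ a)) ∈ RingHom.ker θ := by
      rw [RingHom.mem_ker, map_sub, hθ, eval_C, sub_self]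
    rw [← hIθ, Ideal.mem_comap, map_sub] at h1
    exact Ideal.Quotient.eq.2 h1
  let algkL : Algebra k (D ⧸ I) := ρ.toAlgebra
  have : Algebra.IsIntegral k (D ⧸ I) := by
    refine ⟨fun l => ?_⟩
    obtain ⟨d, rfl⟩ := Ideal.Quotient.mk_surjective l
    obtain ⟨p, hp, hpd⟩ := Algebra.IsIntegral.isIntegral (R := A) d
    refine ⟨p.map θ, hp.map θ, ?_⟩
    rw [Polynomial.eval₂_map]
    have h1 := congrArg π hpd
    rw [Polynomial.hom_eval₂, map_zero] at h1
    rw [← h1]
    congr 1
    exact RingHom.ext fun a => (hρ a).symm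
  have hbij := IsAlgClosed.algebraMap_bijective_of_isIntegral (k := k) (K := D ⧸ I)
  choose x hx using fun i => hbij.2 (π ⟨_, hX i⟩)
  refine ⟨x, fun j => ?_⟩
  apply hbij.1
  -- both sides are the image of the same element
  let σ : MvPolynomial (Fin n) k →+* D ⧸ I := (π.comp (algebraMap A D)).comp
    (algebraMap (MvPolynomial (Fin n) k) A)
  have h1 : σ (X j) = algebraMap k (D ⧸ I) (y j) := by
    change π (algebraMap A D _) = _
    rw [hρ, hθ, eval_X]
    rfl
  have hmem : ∀ g : MvPolynomial (Fin n) k, algebraMap (MvPolynomial (Fin n) k) K g ∈ D ∧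
      ∀ h : algebraMap (MvPolynomial (Fin n) k) K g ∈ D,
        π ⟨_, h⟩ = algebraMap k (D ⧸ I) (eval x g) := by
    intro g
    induction g using MvPolynomial.induction_on with
    | C c =>
      have h2 : algebraMap (MvPolynomial (Fin n) k) K (C c) =
          ((algebraMap A D (algebraMap (MvPolynomial (Fin n) k) A (C c)) : D) : K) := by
        change _ = φ' _
        rw [hφ']
        change _ = algebraMap (MvPolynomial (Fin n) k) K (aeval f (C c))
        rw [aeval_C]
        rfl
      refine ⟨by rw [h2]; exact (algebraMap A D _).2, fun h => ?_⟩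
      have h3 : (⟨_, h⟩ : D) = algebraMap A D (algebraMap (MvPolynomial (Fin n) k) A (C c)) :=
        Subtype.ext h2
      rw [h3, eval_C]
      rfl
    | add p q hp hq =>
      refine ⟨by rw [map_add]; exact add_mem hp.1 hq.1, fun h => ?_⟩
      have h3 : (⟨_, h⟩ : D) = ⟨_, hp.1⟩ + ⟨_, hq.1⟩ := Subtype.ext (map_add _ _ _)
      rw [h3, map_add, hp.2, hq.2, map_add, map_add]
    | mul_X p i hp =>
      refine ⟨by rw [map_mul]; exact mul_mem hp.1 (hX i), fun h => ?_⟩
      have h3 : (⟨_, h⟩ : D) = ⟨_, hp.1⟩ * ⟨_, hX i⟩ := Subtype.ext (map_mul _ _ _)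
      rw [h3, map_mul, hp.2, map_mul, eval_X, map_mul, hx]
  rw [← (hmem (f j)).2 (hmem (f j)).1, ← h1]
  change π _ = π (algebraMap A D (algebraMap (MvPolynomial (Fin n) k) A (X j)))
  congr 1
  apply Subtype.ext
  change _ = φ' _
  rw [hφ']
  change _ = algebraMap (MvPolynomial (Fin n) k) K (aeval f (X j))
  rw [aeval_X]

end

end Vale.Agent.P297.G4
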