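import Vale.Agent.P297.H424.G4.TDef

/-!
The action of the automorphisms on the cycles attached to the points of the jacobian.
-/

set_option linter.unusedSectionVars false

open IntermediateField Polynomial WeierstrassCurve WeierstrassCurve.Affine

namespace Vale.Agent.P297.G4

open Vale.Agent.P297 Vale.Agent.P297.Gen Vale.Agent.P297.H839 Vale.Agent.P297.H600
open Vale.Agent.P297.H729 Vale.Agent.P297.Z3

section

variable {K N : Type} [Field K] [Algebra ℂ K] [Field N] [Algebra ℂ N]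

/-- the cycle attached to a point of the jacobian -/
noncomputable def bet [CharZero N] (B : N → N → N → ((K →ₐ[ℂ] N) →₀ ℤ)) (c : Fin 5 → N)
    (ε e : N) (P : (Wq c).Point) : (K →ₐ[ℂ] N) →₀ ℤ := B e (aX c ε P) (aY c ε P)

/-- the sum over the translates by the points of order two -/
noncomputable def nsum [CharZero N] [DecidableEq N] (B : N → N → N → ((K →ₐ[ℂ] N) →₀ ℤ))
    (c : Fin 5 → N) (ε e : N) (P : (Wq c).Point) : (K →ₐ[ℂ] N) →₀ ℤ :=
  ∑ t ∈ tors2 (-qI c / 3) (-qJ c / 27), bet B c ε e (P + t)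

/-- The data of the other side: an algebraically closed field of transcendence degree four, a
transcendental element `s`, a root `ε` of the quartic at `s`. -/
structure TD (m : Fin 11 → ℂ) (B : N → N → N → ((K →ₐ[ℂ] N) →₀ ℤ)) (s ε : N) : Prop where
  deg : Algebra.trdeg ℂ N = 4
  tr : Transcendental ℂ s
  disc : 4 * qI (cq m s) ^ 3 ≠ qJ (cq m s) ^ 2
  root : qv (cq m s) ε = 0
  equi : ∀ (g : N ≃ₐ[ℂ] N) (e X Y : N), act g.toAlgHom (B e X Y) = B (g e) (g X) (g Y)

variable [CharZero N] [IsAlgClosed N] [DecidableEq N]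
variable {m : Fin 11 → ℂ} {B : N → N → N → ((K →ₐ[ℂ] N) →₀ ℤ)} {s ε : N}

theorem TD.s_ne (T : TD m B s ε) : s ≠ 0 := by
  rintro rfl
  exact T.tr isAlgebraic_zero

theorem TD.cmem (_ : TD m B s ε) (i : Fin 5) : cq m s i ∈ cl0 {s} := by
  have h1 : s ∈ cl0 ({s} : Set N) := subset_cl0 _ rfl
  exact cq_mem (lv_mem h1) m i

theorem TD.amem (T : TD m B s ε) : -qI (cq m s) / 3 ∈ cl0 {s} := a_mem T.cmem

theorem TD.bmem (T : TD m B s ε) : -qJ (cq m s) / 27 ∈ cl0 {s} := b_mem T.cmem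

theorem TD.emem (T : TD m B s ε) : ε ∈ cl0 {s} :=
  root_mem (closed_cl0 _) T.cmem (coeff_ne T.disc) T.root

/-- generic points stay generic -/
theorem TD.gen_act (_ : TD m B s ε) {g : N ≃ₐ[ℂ] N} (hg : g s = s ∨ g s = s⁻¹)
    (hc : ∀ i, g (cq m s i) = cq m s i) {P : (Wq (cq m s)).Point}
    (hP : ¬ InF (cl0 {s}) P) : ¬ InF (cl0 {s}) (gpt g hc P) := by
  intro h
  apply hP
  rcases P with (_ | ⟨x, y, hxy⟩)
  · exact inF_zero _
  · obtain ⟨h1, h2⟩ := h (g x) (g y) (gfun_aux (g : N →+* N) (fixW hc) hxy) rfl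
    have h3 := map_kap (symm_kap hg) h1
    have h4 := map_kap (symm_kap hg) h2
    rw [AlgEquiv.symm_apply_apply] at h3 h4
    exact inF_some _ h3 h4

/-- the action on the cycles -/
theorem TD.bet_act (T : TD m B s ε) (g : N ≃ₐ[ℂ] N) (hg : g s = s ∨ g s = s⁻¹)
    (hc : ∀ i, g (cq m s i) = cq m s i) :
    ∃ t : (Wq (cq m s)).Point, (2 : ℕ) • t = 0 ∧ ∀ (e : N) (P : (Wq (cq m s)).Point),
      ¬ InF (cl0 {s}) P → act g.toAlgHom (bet B (cq m s) ε e P) =
        bet B (cq m s) ε (g e) (gpt g hc P + t) := by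
  have h0 : qv (cq m s) (g ε) = 0 := by
    have h1 := map_qv (g : N →+* N) (cq m s) ε
    have h2 : (fun i => (g : N →+* N) (cq m s i)) = cq m s := funext hc
    rw [h2, T.root, map_zero] at h1
    exact h1.symm
  by_cases hε : g ε = ε
  · refine ⟨0, smul_zero _, fun e P hP => ?_⟩
    unfold bet
    rw [T.equi, map_aX hc, map_aY hc, hε, add_zero]
  · refine ⟨tor (cq m s) (g ε) ε, two_tor T.disc h0 T.root hε, fun e P hP => ?_⟩
    unfold bet
    rw [T.equi, map_aX hc, map_aY hc]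
    have h1 := T.gen_act hg hc hP
    have h2 : g ε ∈ cl0 {s} := map_kap hg T.emem
    obtain ⟨-, h3, h4⟩ := change T.disc h0 T.root hε
      (gen_fin T.cmem (closed_cl0 _) h2 h1) (fun h5 =>
        aX_notMem T.disc T.cmem (closed_cl0 _) h2 h0 h1 (by rw [h5]; exact T.emem))
    rw [h3, h4]

theorem nsum_add {c : Fin 5 → N} (ε e : N) (P t : (Wq c).Point) (ht : (2 : ℕ) • t = 0) :
    nsum B c ε e (P + t) = nsum B c ε e P := by
  classical
  unfold nsum
  have himage : (tors2 (-qI c / 3) (-qJ c / 27)).image (fun u => t + u) =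
      tors2 (-qI c / 3) (-qJ c / 27) := by
    apply Finset.eq_of_subset_of_card_le
    · intro v hv
      obtain ⟨u, hu, rfl⟩ := Finset.mem_image.1 hv
      rw [mem_tors2] at hu ⊢
      rw [nsmul_add, ht, hu, add_zero]
    · rw [Finset.card_image_of_injective _ (add_right_injective t)]
  conv_rhs => rw [← himage]
  rw [Finset.sum_image (add_right_injective t).injOn]
  refine Finset.sum_congr rfl fun u _ => ?_
  rw [add_assoc]

theorem gpt_add {c : Fin 5 → N} (g : N ≃ₐ[ℂ] N) (hc : ∀ i, g (c i) = c i)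
    (P Q : (Wq c).Point) : gpt g hc (P + Q) = gpt g hc P + gpt g hc Q :=
  gfun_add _ _ _ _

theorem gpt_injective {c : Fin 5 → N} (g : N ≃ₐ[ℂ] N) (hc : ∀ i, g (c i) = c i) :
    Function.Injective (gpt g hc) :=
  gfun_injective _ _

theorem gpt_neg {c : Fin 5 → N} (g : N ≃ₐ[ℂ] N) (hc : ∀ i, g (c i) = c i)
    (P : (Wq c).Point) : gpt g hc (-P) = -gpt g hc P :=
  gfun_neg _ _ _

theorem gpt_two {c : Fin 5 → N} (g : N ≃ₐ[ℂ] N) (hc : ∀ i, g (c i) = c i)
    {P : (Wq c).Point} (hP : (2 : ℕ) • P = 0) : (2 : ℕ) • gpt g hc P = 0 := by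
  have h := gfun_nsmul (g : N →+* N) (fixW hc) 2 P
  rw [hP] at h
  exact h.symm

/-- the action on the sums over the translates -/
theorem TD.nsum_act (T : TD m B s ε) (g : N ≃ₐ[ℂ] N) (hg : g s = s ∨ g s = s⁻¹)
    (hc : ∀ i, g (cq m s i) = cq m s i) (e : N) {P : (Wq (cq m s)).Point}
    (hP : ¬ InF (cl0 {s}) P) : act g.toAlgHom (nsum B (cq m s) ε e P) =
      nsum B (cq m s) ε (g e) (gpt g hc P) := by
  classical
  obtain ⟨τ, hτ, hact⟩ := T.bet_act g hg hc
  rw [← nsum_add ε (g e) _ τ hτ]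
  unfold nsum
  rw [map_sum]
  have himage : (tors2 (-qI (cq m s) / 3) (-qJ (cq m s) / 27)).image (fun t => gpt g hc t) =
      tors2 (-qI (cq m s) / 3) (-qJ (cq m s) / 27) := by
    apply Finset.eq_of_subset_of_card_le
    · intro v hv
      obtain ⟨t, ht, rfl⟩ := Finset.mem_image.1 hv
      rw [mem_tors2] at ht ⊢
      exact gpt_two g hc ht
    · rw [Finset.card_image_of_injective _ (gpt_injective g hc)]
  conv_rhs => rw [← himage]
  rw [Finset.sum_image (gpt_injective g hc).injOn]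
  refine Finset.sum_congr rfl fun t ht => ?_
  have ht2 := mem_tors2.1 ht
  rw [hact e (P + t) (gen_add2 (closed_cl0 _) T.amem T.bmem hP ht2), gpt_add]
  congr 1
  abel

/-! ### relations -/

/-- the relation of a point and its opposite -/
theorem TD.rel_neg (T : TD m B s ε) {e : N} (he : e = s ∨ e = s⁻¹) {P : (Wq (cq m s)).Point}
    (hP : ¬ InF (cl0 {s}) P) : bet B (cq m s) ε e P + bet B (cq m s) ε e (-P) ∈
      stableRelations K N := by
  set X := aX (cq m s) ε P with hX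
  have hXm : X ∉ cl0 {s} := aX_notMem T.disc T.cmem (closed_cl0 _) T.emem T.root hP
  obtain ⟨t₁, ht₁⟩ := exists_notMem1 T.deg s X
  obtain ⟨t₂, ht₂⟩ := exists_notMem2 T.deg s X t₁
  have hetr : Transcendental ℂ e := by
    intro h
    apply T.tr
    rcases he with rfl | rfl
    · exact h
    · have h1 := h.inv
      rwa [inv_inv] at h1
  rw [← cl0_inv he] at hXm ht₁ ht₂
  have hind := ind_chain hetr hXm ht₁ ht₂
  have hall := all_of_ind T.deg hind
  refine stable_of_fixed (IntermediateField.adjoin ℂ (Set.range ![e, X, t₁, t₂]))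
    ⟨4, _, hind, rfl⟩ ⟨fun v => mem_cl0.1 (hall v)⟩ _ fun g hg => ?_
  have hge : g e = e := hg _ (IntermediateField.subset_adjoin _ _ ⟨0, rfl⟩)
  have hgX : g X = X := hg _ (IntermediateField.subset_adjoin _ _ ⟨1, rfl⟩)
  have hgs : g s = s ∨ g s = s⁻¹ := by
    left
    rcases he with rfl | rfl
    · exact hge
    · rw [map_inv₀, inv_inj] at hge
      exact hge
  have hc := cq_fix T.s_ne m hgs
  have hfin := gen_fin T.cmem (closed_cl0 _) T.emem hP
  have hY := Fin'.eqn T.root hfin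
  have hY2 : g (aY (cq m s) ε P) ^ 2 = aY (cq m s) ε P ^ 2 := by
    rw [← map_pow, hY, ← hX]
    have h1 := map_qv (g : N →+* N) (cq m s) X
    have h2 : (fun i => (g : N →+* N) ((cq m s) i)) = (cq m s) := funext hc
    rw [h2] at h1
    change (g : N →+* N) (qv (cq m s) X) = _
    rw [h1]
    change qv (cq m s) (g X) = _
    rw [hgX]
  rw [map_add]
  unfold bet
  rw [T.equi, T.equi, aX_neg, aY_neg, hge, ← hX, hgX, map_neg]
  rcases sq_eq_sq_iff_eq_or_eq_neg.1 hY2 with h1 | h1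
  · rw [h1]
  · rw [h1, neg_neg, add_comm]

/-- The relation of four points with sum zero. -/
theorem TD.rel_star (T : TD m B s ε) {e : N} (he : e = s ∨ e = s⁻¹)
    (P : Fin 4 → (Wq (cq m s)).Point) (hsum : P 0 + P 1 + (P 2 + P 3) = 0)
    {M₁ M₂ : IntermediateField ℂ N} (hM₁ : Closed M₁) (hM₂ : Closed M₂)
    (h01 : cl0 {s} ≤ M₁) (h12 : M₁ ≤ M₂)
    (g₁ : ¬ InF (cl0 {s}) (P 0)) (m₁ : InF M₁ (P 0)) (g₂ : ¬ InF M₁ (P 1)) (m₂ : InF M₂ (P 1))
    (g₃ : ¬ InF M₂ (P 2))
    (hall : ∀ M : IntermediateField ℂ N, Closed M → cl0 {s} ≤ M → InF M (P 0) → InF M (P 1) →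
      InF M (P 2) → ∀ z, z ∈ M) :
    ∑ i, bet B (cq m s) ε e (P i) ∈ stableRelations K N := by
  set κ := cl0 ({s} : Set N) with hκ
  have hκc : Closed κ := closed_cl0 _
  have hκ2 : κ ≤ M₂ := h01.trans h12
  have a0 := T.amem
  have b0 := T.bmem
  have a1 := h01 a0
  have a2 := hκ2 a0
  have m₁' : InF M₂ (P 0) := m₁.mono h12
  have e3 : P 3 = -(P 0 + P 1 + P 2) := by
    rw [eq_neg_iff_add_eq_zero, ← hsum]
    abel
  -- genericity
  have k0 : ¬ InF κ (P 0) := g₁
  have k1 : ¬ InF κ (P 1) := fun h => g₂ (h.mono h01)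
  have k2 : ¬ InF κ (P 2) := fun h => g₃ (h.mono hκ2)
  have n3 : ¬ InF M₂ (P 3) := by
    intro h
    apply g₃
    have h1 : P 2 = -P 3 - (P 0 + P 1) := by rw [e3]; abel
    rw [h1]
    exact (h.neg).sub a2 (m₁'.add a2 m₂)
  have k3 : ¬ InF κ (P 3) := fun h => n3 (h.mono hκ2)
  have hPk : ∀ i, ¬ InF κ (P i) := by
    intro i
    fin_cases i
    · exact k0
    · exact k1
    · exact k2
    · exact k3
  -- a linear combination that is not zero
  have hM₂0 : ∀ {Q : (Wq (cq m s)).Point}, InF M₂ Q → ¬ InF M₂ (P 2 + Q) := by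
    intro Q hQ h
    apply g₃
    have h1 : P 2 = P 2 + Q - Q := by abel
    rw [h1]
    exact h.sub a2 hQ
  have hne0 : ∀ {M : IntermediateField ℂ N} {Q : (Wq (cq m s)).Point}, ¬ InF M Q → Q ≠ 0 := by
    intro M Q h h0
    apply h
    rw [h0]
    exact inF_zero _
  have d2 : ∀ {M : IntermediateField ℂ N} (_ : Closed M) (_ : κ ≤ M) {Q : (Wq (cq m s)).Point},
      ¬ InF M Q → ¬ InF M ((2 : ℕ) • Q) := by
    intro M hM hle Q hQ h
    exact hQ (div_two hM (hle a0) (hle b0) h)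
  have sub_in : ∀ {M : IntermediateField ℂ N} (_ : κ ≤ M) {Q R : (Wq (cq m s)).Point}, ¬ InF M Q →
      InF M R → Q + R ≠ 0 := by
    intro M hle Q R hQ hR h0
    apply hQ
    rw [eq_neg_of_add_eq_zero_left h0]
    exact hR.neg
  -- sums of two points
  have s01 : P 0 + P 1 ≠ 0 := by
    rw [add_comm]
    exact sub_in h01 g₂ m₁
  have s02 : P 0 + P 2 ≠ 0 := by
    rw [add_comm]
    exact sub_in hκ2 g₃ m₁'
  have s12 : P 1 + P 2 ≠ 0 := by
    rw [add_comm]
    exact sub_in hκ2 g₃ m₂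
  have s03 : P 0 + P 3 ≠ 0 := by
    intro h0
    apply s12
    rw [← hsum, ← sub_eq_zero]
    rw [← neg_eq_zero.2 h0]
    abel
  have s13 : P 1 + P 3 ≠ 0 := by
    intro h0
    apply s02
    rw [← hsum, ← sub_eq_zero]
    rw [← neg_eq_zero.2 h0]
    abel
  have s23 : P 2 + P 3 ≠ 0 := by
    intro h0
    apply s01
    rw [h0, add_zero] at hsum
    exact hsum
  have t01 : P 0 ≠ P 1 := by
    intro h0
    rw [← h0] at g₂
    exact g₂ m₁
  have t02 : P 0 ≠ P 2 := by
    intro h0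
    rw [← h0] at g₃
    exact g₃ m₁'
  have t12 : P 1 ≠ P 2 := by
    intro h0
    rw [← h0] at g₃
    exact g₃ m₂
  have t03 : P 0 ≠ P 3 := by
    intro h0
    rw [← h0] at n3
    exact n3 m₁'
  have t13 : P 1 ≠ P 3 := by
    intro h0
    rw [← h0] at n3
    exact n3 m₂
  have t23 : P 2 ≠ P 3 := by
    intro h0
    apply d2 hM₂ hκ2 g₃
    have h1 : (2 : ℕ) • P 2 = -(P 0 + P 1) := by
      rw [eq_neg_iff_add_eq_zero, ← hsum, ← h0, two_nsmul]
      abel
    rw [h1]
    exact (m₁'.add a2 m₂).neg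
  have hinj : ∀ i j, i ≠ j → P i ≠ P j ∧ P i + P j ≠ 0 := by
    intro i j hij
    fin_cases i <;> fin_cases j
    · exact absurd rfl hij
    · exact ⟨t01, s01⟩
    · exact ⟨t02, s02⟩
    · exact ⟨t03, s03⟩
    · exact ⟨t01.symm, by rw [add_comm]; exact s01⟩
    · exact absurd rfl hij
    · exact ⟨t12, s12⟩
    · exact ⟨t13, s13⟩
    · exact ⟨t02.symm, by rw [add_comm]; exact s02⟩
    · exact ⟨t12.symm, by rw [add_comm]; exact s12⟩
    · exact absurd rfl hij
    · exact ⟨t23, s23⟩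
    · exact ⟨t03.symm, by rw [add_comm]; exact s03⟩
    · exact ⟨t13.symm, by rw [add_comm]; exact s13⟩
    · exact ⟨t23.symm, by rw [add_comm]; exact s23⟩
    · exact absurd rfl hij
  -- `2 P i + P j`
  have htan : ∀ i j, i ≠ j → (2 : ℕ) • P i + P j ≠ 0 := by
    have w01 : (2 : ℕ) • P 0 + P 1 ≠ 0 := by
      rw [add_comm]
      refine sub_in h01 g₂ ?_
      rw [two_nsmul]
      exact m₁.add a1 m₁
    have w10 : (2 : ℕ) • P 1 + P 0 ≠ 0 := sub_in h01 (d2 hM₁ h01 g₂) m₁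
    have in2 : ∀ {Q : (Wq (cq m s)).Point}, InF M₂ Q → InF M₂ ((2 : ℕ) • Q) := by
      intro Q hQ
      rw [two_nsmul]
      exact hQ.add a2 hQ
    have w02 : (2 : ℕ) • P 0 + P 2 ≠ 0 := by
      rw [add_comm]
      exact sub_in hκ2 g₃ (in2 m₁')
    have w12 : (2 : ℕ) • P 1 + P 2 ≠ 0 := by
      rw [add_comm]
      exact sub_in hκ2 g₃ (in2 m₂)
    have w20 : (2 : ℕ) • P 2 + P 0 ≠ 0 := sub_in hκ2 (d2 hM₂ hκ2 g₃) m₁'
    have w21 : (2 : ℕ) • P 2 + P 1 ≠ 0 := sub_in hκ2 (d2 hM₂ hκ2 g₃) m₂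
    have w03 : (2 : ℕ) • P 0 + P 3 ≠ 0 := by
      rw [add_comm]
      exact sub_in hκ2 n3 (in2 m₁')
    have w13 : (2 : ℕ) • P 1 + P 3 ≠ 0 := by
      rw [add_comm]
      exact sub_in hκ2 n3 (in2 m₂)
    have w30 : (2 : ℕ) • P 3 + P 0 ≠ 0 := sub_in hκ2 (d2 hM₂ hκ2 n3) m₁'
    have w31 : (2 : ℕ) • P 3 + P 1 ≠ 0 := sub_in hκ2 (d2 hM₂ hκ2 n3) m₂
    have w23 : (2 : ℕ) • P 2 + P 3 ≠ 0 := by
      have h1 : (2 : ℕ) • P 2 + P 3 = P 2 + -(P 0 + P 1) := by
        rw [e3, two_nsmul]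
        abel
      rw [h1]
      exact sub_in hκ2 g₃ (m₁'.add a2 m₂).neg
    have w32 : (2 : ℕ) • P 3 + P 2 ≠ 0 := by
      have h1 : (2 : ℕ) • P 3 + P 2 = P 3 + -(P 0 + P 1) := by
        rw [two_nsmul]
        nth_rewrite 2 [e3]
        abel
      rw [h1]
      exact sub_in hκ2 n3 (m₁'.add a2 m₂).neg
    intro i j hij
    fin_cases i <;> fin_cases j
    · exact absurd rfl hij
    · exact w01
    · exact w02
    · exact w03
    · exact w10
    · exact absurd rfl hij
    · exact w12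
    · exact w13
    · exact w20
    · exact w21
    · exact absurd rfl hij
    · exact w23
    · exact w30
    · exact w31
    · exact w32
    · exact absurd rfl hij
  have hfin : ∀ i, Fin' (cq m s) ε (P i) := fun i => gen_fin T.cmem hκc T.emem (hPk i)
  obtain ⟨α, β, γ, hY, hXne, huniq⟩ := parabola_quartic T.disc T.root hfin hsum hinj htan
  -- the field
  have hv : ∀ z, z ∈ cl0 (Set.range ![e, α, β, γ]) := by
    set M := cl0 (Set.range ![e, α, β, γ]) with hM
    have hMc : Closed M := closed_cl0 _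
    have heM : e ∈ M := subset_cl0 _ ⟨0, rfl⟩
    have hαM : α ∈ M := subset_cl0 _ ⟨1, rfl⟩
    have hβM : β ∈ M := subset_cl0 _ ⟨2, rfl⟩
    have hγM : γ ∈ M := subset_cl0 _ ⟨3, rfl⟩
    have hκM : κ ≤ M := by
      rw [hκ, ← cl0_inv he]
      exact cl0_le hMc (Set.singleton_subset_iff.2 heM)
    have hcM : ∀ i, (cq m s) i ∈ M := fun i => hκM (T.cmem i)
    have hin : ∀ i, InF M (P i) := by
      intro i
      rw [← aX_mem_iff T.disc hcM hMc (hκM T.emem) T.root (hfin i)]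
      refine root_mem hMc (c := parRes (cq m s) α β γ) ?_ (parRes_ne T.disc α β γ) ?_
      · intro j
        fin_cases j
        · exact sub_mem (hcM 0) (pow_mem hγM 2)
        · exact sub_mem (hcM 1) (mul_mem (mul_mem (ofNat_mem M 2) hβM) hγM)
        · exact sub_mem (hcM 2) (add_mem (pow_mem hβM 2)
            (mul_mem (mul_mem (ofNat_mem M 2) hαM) hγM))
        · exact sub_mem (hcM 3) (mul_mem (mul_mem (ofNat_mem M 2) hαM) hβM)
        · exact sub_mem (hcM 4) (pow_mem hαM 2)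
      · rw [qv_parRes, sub_eq_zero, ← hY i]
        exact (Fin'.eqn T.root (hfin i)).symm
    exact hall M hMc hκM (hin 0) (hin 1) (hin 2)
  have hind := ind_of_all T.deg hv
  refine stable_of_fixed (IntermediateField.adjoin ℂ (Set.range ![e, α, β, γ]))
    ⟨4, _, hind, rfl⟩ ⟨fun v => mem_cl0.1 (hv v)⟩ _ fun g hg => ?_
  have hge : g e = e := hg _ (IntermediateField.subset_adjoin _ _ ⟨0, rfl⟩)
  have hgα : g α = α := hg _ (IntermediateField.subset_adjoin _ _ ⟨1, rfl⟩)
  have hgβ : g β = β := hg _ (IntermediateField.subset_adjoin _ _ ⟨2, rfl⟩)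
  have hgγ : g γ = γ := hg _ (IntermediateField.subset_adjoin _ _ ⟨3, rfl⟩)
  have hgs : g s = s ∨ g s = s⁻¹ := by
    left
    rcases he with rfl | rfl
    · exact hge
    · rw [map_inv₀, inv_inj] at hge
      exact hge
  have hc := cq_fix T.s_ne m hgs
  -- the permutation
  have hperm : ∀ i, ∃ j, g (aX (cq m s) ε (P i)) = aX (cq m s) ε (P j) := by
    intro i
    refine huniq (g (aX (cq m s) ε (P i))) (g (aY (cq m s) ε (P i))) ?_ ?_
    · rw [← map_pow, Fin'.eqn T.root (hfin i)]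
      have h1 := map_qv (g : N →+* N) (cq m s) (aX (cq m s) ε (P i))
      have h2 : (fun i => (g : N →+* N) ((cq m s) i)) = (cq m s) := funext hc
      rw [h2] at h1
      exact h1
    · have h1 := congrArg g (hY i)
      rw [map_add, map_add, map_mul, map_mul, map_pow, hgα, hgβ, hgγ] at h1
      exact h1
  choose σ hσ using hperm
  have hσinj : Function.Injective σ := by
    intro i j hij
    by_contra hne
    apply hXne i j hne
    apply g.injective
    rw [hσ i, hσ j, hij]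
  have hσb : Function.Bijective σ := Finite.injective_iff_bijective.1 hσinj
  rw [map_sum]
  have h5 : ∀ i, act g.toAlgHom (bet B (cq m s) ε e (P i)) = bet B (cq m s) ε e (P (σ i)) := by
    intro i
    unfold bet
    rw [T.equi, hge, hσ i]
    congr 1
    have h1 := congrArg g (hY i)
    rw [map_add, map_add, map_mul, map_mul, map_pow, hgα, hgβ, hgγ, hσ i] at h1
    rw [h1, hY (σ i)]
  simp only [h5]
  exact Function.Bijective.sum_comp hσb (fun i => bet B (cq m s) ε e (P i))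

end

end Vale.Agent.P297.G4
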