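import Vale.Agent.P297.H572.Z3.Mem

/-!
Algebraically closed fields of transcendence degree four.
-/

set_option linter.unusedSectionVars false

open IntermediateField Polynomial

namespace Vale.Agent.P297.G4

open Vale.Agent.P297 Vale.Agent.P297.Gen Vale.Agent.P297.Z3

section

variable {N : Type} [Field N] [Algebra ℂ N]

theorem mem_cl0' [IsAlgClosed N] {S : Set N} {x : N} :
    x ∈ cl0 S ↔ IsAlgebraic (Algebra.adjoin ℂ S) x := by
  rw [mem_cl0]
  exact IntermediateField.isAlgebraic_adjoin_iff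

theorem ind_snoc [IsAlgClosed N] {n : ℕ} {v : Fin n → N} (hv : AlgebraicIndependent ℂ v) {x : N}
    (hx : x ∉ cl0 (Set.range v)) : AlgebraicIndependent ℂ (Fin.snoc v x : Fin (n + 1) → N) := by
  have h1 := (hv.option_iff_transcendental x).2 (by rwa [mem_cl0'] at hx)
  have h2 := h1.comp finSuccEquivLast finSuccEquivLast.injective
  have h3 : (fun o : Option (Fin n) => o.elim x v) ∘ finSuccEquivLast =
      (Fin.snoc v x : Fin (n + 1) → N) := by
    funext i
    refine Fin.lastCases ?_ (fun j => ?_) i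
    · simp
    · simp
  rwa [h3] at h2

variable [IsAlgClosed N]

/-- independence of a chain -/
theorem ind_chain {s x₁ x₂ x₃ : N} (hs : Transcendental ℂ s) (h₁ : x₁ ∉ cl0 {s})
    (h₂ : x₂ ∉ clo (cl0 {s}) {x₁}) (h₃ : x₃ ∉ clo (clo (cl0 {s}) {x₁}) {x₂}) :
    AlgebraicIndependent ℂ ![s, x₁, x₂, x₃] := by
  have k1 : AlgebraicIndependent ℂ ![s] := (algebraicIndependent_unique_type_iff).2 hs
  have k2 : AlgebraicIndependent ℂ ![s, x₁] := by
    have h := ind_snoc k1 (x := x₁) (by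
      rwa [Matrix.range_cons, Matrix.range_empty, Set.union_empty])
    have h3 : (Fin.snoc ![s] x₁ : Fin 2 → N) = ![s, x₁] := by
      funext i
      fin_cases i <;> rfl
    rwa [h3] at h
  have k3 : AlgebraicIndependent ℂ ![s, x₁, x₂] := by
    have h := ind_snoc k2 (x := x₂) (by
      intro h0
      apply h₂
      refine cl0_le (closed_clo _ _) ?_ h0
      rintro _ ⟨i, rfl⟩
      fin_cases i
      · exact le_clo _ _ (subset_cl0 _ rfl)
      · exact mem_clo_self _ _)
    have h3 : (Fin.snoc ![s, x₁] x₂ : Fin 3 → N) = ![s, x₁, x₂] := by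
      funext i
      fin_cases i <;> rfl
    rwa [h3] at h
  have h := ind_snoc k3 (x := x₃) (by
    intro h0
    apply h₃
    refine cl0_le (closed_clo _ _) ?_ h0
    rintro _ ⟨i, rfl⟩
    fin_cases i
    · exact le_clo _ _ (le_clo _ _ (subset_cl0 _ rfl))
    · exact le_clo _ _ (mem_clo_self _ _)
    · exact mem_clo_self _ _)
  have h3 : (Fin.snoc ![s, x₁, x₂] x₃ : Fin 4 → N) = ![s, x₁, x₂, x₃] := by
    funext i
    fin_cases i <;> rfl
  rwa [h3] at h

/-- everything is algebraic over four independent elements -/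
theorem all_of_ind (h4 : Algebra.trdeg ℂ N = 4) {v : Fin 4 → N} (hv : AlgebraicIndependent ℂ v)
    (z : N) : z ∈ cl0 (Set.range v) := by
  have h1 := hv.isTranscendenceBasis_of_trdeg_le_of_finite (by
    rw [h4, Cardinal.mk_fin]
    rfl)
  rw [mem_cl0']
  exact h1.isAlgebraic.isAlgebraic z

theorem ind_of_all (h4 : Algebra.trdeg ℂ N = 4) {v : Fin 4 → N}
    (h : ∀ z, z ∈ cl0 (Set.range v)) : AlgebraicIndependent ℂ v := by
  have h1 : Algebra.IsAlgebraic (Algebra.adjoin ℂ (Set.range v)) N :=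
    ⟨fun z => mem_cl0'.1 (h z)⟩
  exact (Algebra.IsAlgebraic.isTranscendenceBasis_of_le_trdeg_of_finite ℂ v (by
    rw [h4, Cardinal.mk_fin]
    rfl)).1

theorem full {s x₁ x₂ x₃ : N} (h4 : Algebra.trdeg ℂ N = 4) (hs : Transcendental ℂ s)
    (h₁ : x₁ ∉ cl0 {s}) (h₂ : x₂ ∉ clo (cl0 {s}) {x₁})
    (h₃ : x₃ ∉ clo (clo (cl0 {s}) {x₁}) {x₂}) {M : IntermediateField ℂ N} (hM : Closed M)
    (m0 : s ∈ M) (m1 : x₁ ∈ M) (m2 : x₂ ∈ M) (m3 : x₃ ∈ M) (z : N) : z ∈ M := by
  refine cl0_le hM ?_ (all_of_ind h4 (ind_chain hs h₁ h₂ h₃) z)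
  rintro _ ⟨i, rfl⟩
  fin_cases i
  · exact m0
  · exact m1
  · exact m2
  · exact m3

theorem exists_notMem3 (h4 : Algebra.trdeg ℂ N = 4) (a b c : N) :
    ∃ t, t ∉ cl0 ({a, b, c} : Set N) := by
  by_contra hcon
  push Not at hcon
  have h1 : Algebra.IsAlgebraic (Algebra.adjoin ℂ ({a, b, c} : Set N)) N :=
    ⟨fun z => mem_cl0'.1 (hcon z)⟩
  have h2 := Algebra.IsAlgebraic.trdeg_le_cardinalMk ℂ ({a, b, c} : Set N)
  have h3 : Cardinal.mk ({a, b, c} : Set N) ≤ 3 := by
    classical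
    have k1 : (({a, b, c} : Finset N) : Set N) = {a, b, c} := by simp
    have k2 : ({a, b, c} : Finset N).card ≤ 3 := Finset.card_le_three
    rw [← k1]
    refine (Cardinal.mk_coe_finset (s := ({a, b, c} : Finset N))).le.trans ?_
    exact_mod_cast k2
  rw [h4] at h2
  have h5 := h2.trans h3
  have h6 : (4 : ℕ) ≤ 3 := by exact_mod_cast h5
  omega

theorem exists_notMem2 (h4 : Algebra.trdeg ℂ N = 4) (s x y : N) :
    ∃ t, t ∉ clo (clo (cl0 {s}) {x}) {y} := by
  obtain ⟨t, ht⟩ := exists_notMem3 h4 s x y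
  refine ⟨t, fun h => ht ?_⟩
  refine clo_le (cl0_closed _) (clo_le (cl0_closed _) (cl0_le (cl0_closed _) ?_) ?_) ?_ h
  · rintro _ rfl
    exact subset_cl0 _ (by simp)
  · rintro _ rfl
    exact subset_cl0 _ (by simp)
  · rintro _ rfl
    exact subset_cl0 _ (by simp)

theorem exists_notMem1 (h4 : Algebra.trdeg ℂ N = 4) (s x : N) : ∃ t, t ∉ clo (cl0 {s}) {x} := by
  obtain ⟨t, ht⟩ := exists_notMem2 h4 s x x
  exact ⟨t, fun h => ht (le_clo _ _ h)⟩

/-- automorphisms that map `s` to `s` or to `s⁻¹` preserve `κ` -/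
theorem map_kap {σ : N ≃ₐ[ℂ] N} {s : N} (hσ : σ s = s ∨ σ s = s⁻¹) {z : N}
    (hz : z ∈ cl0 {s}) : σ z ∈ cl0 {s} := by
  have h1 : cl0 {s} ≤ (cl0 {s}).comap σ.toAlgHom := by
    refine cl0_le ?_ ?_
    · intro x hx
      change σ x ∈ cl0 {s}
      apply closed_cl0
      obtain ⟨p, hp0, hp⟩ := hx
      refine isAlgebraic_of_coeff (p := (p.map (algebraMap (IntermediateField.comap σ.toAlgHom
        (cl0 {s})) N)).map (σ : N →+* N)) ?_ ?_ ?_
      · intro n
        rw [coeff_map, coeff_map]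
        exact (p.coeff n).2
      · refine (Polynomial.map_ne_zero_iff (σ : N →+* N).injective).2 ?_
        exact (Polynomial.map_ne_zero_iff (RingHom.injective _)).2 hp0
      · have h2 := congrArg σ hp
        rw [map_zero, Polynomial.aeval_def, ← Polynomial.eval_map] at h2
        rw [← h2]
        exact Polynomial.eval_map_apply (σ : N →+* N) x
    · rintro _ rfl
      change σ _ ∈ cl0 _
      rcases hσ with h | h
      · rw [h]
        exact subset_cl0 _ rfl
      · rw [h]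
        exact inv_mem (subset_cl0 _ rfl)
  exact h1 hz

theorem symm_kap {σ : N ≃ₐ[ℂ] N} {s : N} (hσ : σ s = s ∨ σ s = s⁻¹) :
    σ.symm s = s ∨ σ.symm s = s⁻¹ := by
  rcases hσ with h | h
  · exact Or.inl (by rw [AlgEquiv.symm_apply_eq, h])
  · exact Or.inr (by rw [AlgEquiv.symm_apply_eq, map_inv₀, h, inv_inv])

theorem kap_notMem {σ : N ≃ₐ[ℂ] N} {s : N} (hσ : σ s = s ∨ σ s = s⁻¹) {z : N}
    (hz : z ∉ cl0 {s}) : σ z ∉ cl0 {s} := by
  intro h
  apply hz
  have h1 := map_kap (symm_kap hσ) h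
  rwa [AlgEquiv.symm_apply_apply] at h1

/-- the field generated by `s⁻¹` -/
theorem cl0_inv {s e : N} (he : e = s ∨ e = s⁻¹) : cl0 {e} = cl0 ({s} : Set N) := by
  rcases he with rfl | rfl
  · rfl
  · apply le_antisymm
    · refine cl0_le (cl0_closed _) ?_
      rintro _ rfl
      exact inv_mem (subset_cl0 _ rfl)
    · refine cl0_le (cl0_closed _) (Set.singleton_subset_iff.2 ?_)
      have h := inv_mem (subset_cl0 ({s⁻¹} : Set N) rfl)
      rwa [inv_inv] at h

end

end Vale.Agent.P297.G4
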